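import Vale.Agent.P197.H328.Irr
import Mathlib.Combinatorics.Enumerative.Partition.Basic
import Mathlib.GroupTheory.Perm.Cycle.Type
import Mathlib.Algebra.Group.ConjFinite
import Mathlib.Analysis.Complex.Polynomial.Basic

/-!
# Every irreducible representation of the symmetric group is a Specht module (helper328)
-/

namespace Vale.Agent.P197.H328

open Equiv Finset Vale.Agent.P197

noncomputable section

section Count

variable {G : Type} [Group G] [Fintype G]

/-- A family of pairwise non-isomorphic irreducible representations with as many members as there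
are conjugacy classes contains every irreducible representation. -/
theorem exists_equiv_of_card_le {ι : Type} [Fintype ι] [DecidableEq ι]
    (V : ι → Type) [∀ i, AddCommGroup (V i)] [∀ i, Module ℂ (V i)]
    [∀ i, Module.Finite ℂ (V i)] (ρ : ∀ i, Representation ℂ G (V i))
    (hirr : ∀ i, (ρ i).IsIrreducible) (hinj : ∀ i j, Nonempty ((ρ i).Equiv (ρ j)) → i = j)
    (hcard : Nat.card (ConjClasses G) ≤ Fintype.card ι)
    {W : Type} [AddCommGroup W] [Module ℂ W] [Module.Finite ℂ W] (τ : Representation ℂ G W)
    (hτ : τ.IsIrreducible) : ∃ i, Nonempty (τ.Equiv (ρ i)) := by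
  classical
  let _ : Invertible (Nat.card G : ℂ) := invertibleOfNonzero (by
    have : Nat.card G ≠ 0 := Nat.card_ne_zero.mpr ⟨⟨1⟩, inferInstance⟩
    exact_mod_cast this)
  by_contra hno
  push Not at hno
  let χ : Option ι → G → ℂ := fun o => o.elim τ.character fun i => (ρ i).character
  have horth : ∀ o o' : Option ι,
      (Nat.card G : ℂ)⁻¹ * ∑ g : G, χ o g * χ o' g⁻¹ = if o = o' then 1 else 0 := by
    intro o o'
    cases o with
    | none =>
      cases o' with
      | none =>
        rw [if_pos rfl]
        have h1 := Representation.char_orthonormal τ τ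
        rw [if_pos ⟨Representation.Equiv.refl τ⟩] at h1
        exact h1
      | some j =>
        rw [if_neg (by simp)]
        have := hirr j
        have h1 := Representation.char_orthonormal τ (ρ j)
        rw [if_neg] at h1
        · exact h1
        · rintro ⟨φ⟩
          exact (hno j).false φ.symm
    | some i =>
      have := hirr i
      cases o' with
      | none =>
        rw [if_neg (by simp)]
        have h1 := Representation.char_orthonormal (ρ i) τ
        rw [if_neg] at h1
        · exact h1
        · rintro ⟨φ⟩
          exact (hno i).false φ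
      | some j =>
        have := hirr j
        have h1 := Representation.char_orthonormal (ρ i) (ρ j)
        by_cases hij : i = j
        · subst hij
          rw [if_pos ⟨Representation.Equiv.refl _⟩] at h1
          rw [if_pos rfl]
          exact h1
        · rw [if_neg (fun h => hij (hinj j i h).symm)] at h1
          rw [if_neg (fun h => hij (Option.some.inj h))]
          exact h1
  have hconj : ∀ (o : Option ι) (g h : G), χ o (h * g * h⁻¹) = χ o g := by
    intro o g h
    cases o with
    | none => exact Representation.char_conj τ g h
    | some i => exact Representation.char_conj (ρ i) g h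
  have hlift : ∀ (o : Option ι) (a b : G), IsConj a b → χ o a = χ o b := by
    intro o a b hab
    obtain ⟨c, hc⟩ := isConj_iff.mp hab
    rw [← hc, hconj]
  let χ' : Option ι → ConjClasses G → ℂ := fun o => Quotient.lift (χ o) (hlift o)
  have hχ' : ∀ o g, χ' o (ConjClasses.mk g) = χ o g := fun o g => rfl
  have hlin : LinearIndependent ℂ χ' := by
    rw [Fintype.linearIndependent_iff]
    intro c hc o'
    have h1 : ∀ g : G, ∑ o, c o * χ o g = 0 := by
      intro g
      have := congrFun hc (ConjClasses.mk g)
      simpa [Finset.sum_apply, hχ'] using this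
    have h2 : (Nat.card G : ℂ)⁻¹ * ∑ g : G, (∑ o, c o * χ o g) * χ o' g⁻¹ = c o' := by
      have h3 : ∑ g : G, (∑ o, c o * χ o g) * χ o' g⁻¹ =
          ∑ o, c o * ∑ g : G, χ o g * χ o' g⁻¹ := by
        simp only [Finset.sum_mul, Finset.mul_sum]
        rw [Finset.sum_comm]
        refine Finset.sum_congr rfl fun o _ => Finset.sum_congr rfl fun g _ => ?_
        ring
      rw [h3, Finset.mul_sum]
      have h4 : ∀ o, (Nat.card G : ℂ)⁻¹ * (c o * ∑ g : G, χ o g * χ o' g⁻¹) =
          c o * if o = o' then 1 else 0 := by
        intro o
        rw [← horth o o']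
        ring
      simp only [h4, mul_ite, mul_one, mul_zero, Finset.sum_ite_eq', Finset.mem_univ, if_true]
    rw [← h2]
    simp [h1]
  have hfin : Fintype (ConjClasses G) := Fintype.ofFinite _
  have h5 := hlin.fintype_card_le_finrank
  rw [Module.finrank_fintype_fun_eq_card, Fintype.card_option] at h5
  rw [Nat.card_eq_fintype_card] at hcard
  omega

end Count

section Diagrams

theorem card_cellsOfRowLens (w : List ℕ) : (YoungDiagram.cellsOfRowLens w).card = w.sum := by
  induction w with
  | nil => rfl
  | cons a w ih =>
    rw [YoungDiagram.cellsOfRowLens, Finset.card_union_of_disjoint, Finset.card_map, ih,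
      List.sum_cons, Finset.card_product, Finset.card_singleton, Finset.card_range, one_mul]
    rw [Finset.disjoint_left]
    rintro ⟨i, j⟩ h1 h2
    rw [Finset.mem_product, Finset.mem_singleton] at h1
    rw [Finset.mem_map] at h2
    obtain ⟨⟨i', j'⟩, -, h3⟩ := h2
    have h4 := congrArg Prod.fst h3
    simp at h4
    simp at h1
    omega

/-- The Young diagram of a partition. -/
def diagram {n : ℕ} (p : n.Partition) : YoungDiagram :=
  YoungDiagram.ofRowLens (p.parts.sort (· ≥ ·))
    (List.sortedGE_iff_pairwise.mpr (Multiset.pairwise_sort _ _))

theorem card_diagram {n : ℕ} (p : n.Partition) : (diagram p).card = n := by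
  have h1 : (diagram p).card = (p.parts.sort (· ≥ ·)).sum := card_cellsOfRowLens _
  rw [h1, ← Multiset.sum_coe, Multiset.sort_eq, p.parts_sum]

theorem diagram_injective {n : ℕ} : Function.Injective (diagram (n := n)) := by
  intro p q h
  have hp : (diagram p).rowLens = p.parts.sort (· ≥ ·) :=
    YoungDiagram.rowLens_ofRowLens_eq_self fun x hx => p.parts_pos ((Multiset.mem_sort _).mp hx)
  have hq : (diagram q).rowLens = q.parts.sort (· ≥ ·) :=
    YoungDiagram.rowLens_ofRowLens_eq_self fun x hx => q.parts_pos ((Multiset.mem_sort _).mp hx)
  rw [h, hq] at hp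
  apply Nat.Partition.ext
  rw [← Multiset.sort_eq p.parts (· ≥ ·), ← Multiset.sort_eq q.parts (· ≥ ·), hp]

/-- A different Young diagram for every conjugacy class. -/
theorem exists_diagrams (n : ℕ) : ∃ F : ConjClasses (Perm (Fin n)) → YoungDiagram,
    Function.Injective F ∧ ∀ c, (F c).card = n := by
  let P : ConjClasses (Perm (Fin n)) → (Fintype.card (Fin n)).Partition :=
    Quotient.lift (fun g => Perm.partition g) fun a b hab => Perm.partition_eq_of_isConj.mp hab
  have hP : Function.Injective P := by
    intro a b
    refine Quotient.inductionOn₂ a b fun g h hgh => ?_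
    exact Quotient.sound (Perm.partition_eq_of_isConj.mpr hgh)
  refine ⟨fun c => diagram (P c), fun a b hab => hP (diagram_injective hab), fun c => ?_⟩
  simp only [card_diagram, Fintype.card_fin]

end Diagrams

/-- A nonzero representation generated by one vector of a finite group is finite-dimensional;
every irreducible representation of a finite group is finite-dimensional. -/
theorem finite_of_irreducible {G : Type} [Group G] [Finite G] {W : Type} [AddCommGroup W]
    [Module ℂ W] (τ : Representation ℂ G W) (hτ : τ.IsIrreducible) : Module.Finite ℂ W := by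
  have hnt : ∃ w : W, w ≠ 0 := by
    by_contra h
    push Not at h
    obtain ⟨P, Q, hPQ⟩ := hτ.toNontrivial
    apply hPQ
    apply Subrepresentation.toSubmodule_injective
    ext x
    rw [h x]
    simp
  obtain ⟨w, hw⟩ := hnt
  let U : Subrepresentation τ :=
    { toSubmodule := Submodule.span ℂ (Set.range fun g => τ g w)
      apply_mem_toSubmodule := by
        intro g v hv
        have h1 : Submodule.span ℂ (Set.range fun g => τ g w) ≤
            (Submodule.span ℂ (Set.range fun g => τ g w)).comap (τ g) := by
          rw [Submodule.span_le]
          rintro _ ⟨h, rfl⟩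
          refine Submodule.subset_span ⟨g * h, ?_⟩
          simp [map_mul]
        exact h1 hv }
  have hU : U = ⊤ := by
    rcases hτ.eq_bot_or_eq_top U with h | h
    · exfalso
      apply hw
      have h1 : w ∈ U := Submodule.subset_span ⟨1, by simp⟩
      rw [h] at h1
      exact h1
    · exact h
  have h2 : Submodule.span ℂ (Set.range fun g => τ g w) = ⊤ :=
    congrArg Subrepresentation.toSubmodule hU
  exact ⟨by rw [← h2]; exact Submodule.fg_span (Set.finite_range _)⟩

set_option maxSynthPendingDepth 3 in
/-- Every irreducible representation of the symmetric group is a Specht module. -/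
theorem classification {n : ℕ} {W : Type} [AddCommGroup W] [Module ℂ W]
    (τ : Representation ℂ (Perm (Fin n)) W) (hτ : τ.IsIrreducible) :
    ∃ lam : YoungDiagram, lam.card = n ∧ Nonempty (τ.Equiv (specht n lam)) := by
  classical
  have := finite_of_irreducible τ hτ
  obtain ⟨F, hF, hc⟩ := exists_diagrams n
  have : Fintype (ConjClasses (Perm (Fin n))) := Fintype.ofFinite _
  obtain ⟨c, hφ⟩ := exists_equiv_of_card_le (ι := ConjClasses (Perm (Fin n)))
    (fun c => spechtSub n (F c)) (fun c => specht n (F c))
    (fun c => specht_irreducible _ (hc c))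
    (fun c d h => hF (eq_of_equiv (hc c) (hc d) h)) (by rw [Nat.card_eq_fintype_card]) τ hτ
  exact ⟨F c, hc c, hφ⟩

end

end Vale.Agent.P197.H328
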