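import Vale.Agent.P197.Bdl.B1

/-!
# Counting small entries in the columns of a tableau (helper328)
-/

namespace Vale.Agent.P197.H328

open Equiv Finset Vale.Agent.P197

section Count

variable {X : Type} [Fintype X] [DecidableEq X]

/-- Number of cells of the diagram in the first `k` rows. -/
def cnt (lam : YoungDiagram) (k : ℕ) : ℕ := (lam.cells.filter fun c => c.1 < k).card

/-- Two functions with fibres of equal size differ by a permutation. -/
theorem exists_perm_of_fiber {Y : Type} [DecidableEq Y] (F G : X → Y)
    (h : ∀ y, (univ.filter fun x => F x = y).card = (univ.filter fun x => G x = y).card) :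
    ∃ π : Perm X, ∀ x, G (π x) = F x := by
  have e : ∀ y, Nonempty ({x // F x = y} ≃ {x // G x = y}) := by
    intro y
    refine ⟨Fintype.equivOfCardEq ?_⟩
    rw [Fintype.card_subtype, Fintype.card_subtype]
    exact h y
  exact ⟨Equiv.ofFiberEquiv fun y => (e y).some, fun x => Equiv.ofFiberEquiv_map _ x⟩

/-- In each column, the row labels have as many small values as possible. -/
theorem col_count_le {lam : YoungDiagram} {rl cl : X → ℕ} (hl : IsLabel lam.cells rl cl)
    (u : X → ℕ) (hu : ∀ x y, cl x = cl y → u x = u y → x = y) (k c : ℕ) :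
    (univ.filter fun x => u x < k ∧ cl x = c).card ≤
      (univ.filter fun x => rl x < k ∧ cl x = c).card := by
  by_cases h : ∃ x, cl x = c ∧ k ≤ rl x
  · obtain ⟨x, hx, hk⟩ := h
    have h1 : (univ.filter fun x => u x < k ∧ cl x = c).card ≤ (range k).card := by
      refine card_le_card_of_injOn u ?_ ?_
      · intro y hy
        simp only [coe_filter, mem_univ, true_and, Set.mem_setOf_eq] at hy
        simp only [coe_range, Set.mem_Iio]
        exact hy.1
      · intro y hy z hz hyz
        simp only [coe_filter, mem_univ, true_and, Set.mem_setOf_eq] at hy hz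
        exact hu y z (hy.2.trans hz.2.symm) hyz
    have h2 : ∀ a ∈ range k, ∃ y, y ∈ (univ.filter fun x => rl x < k ∧ cl x = c) ∧ rl y = a := by
      intro a ha
      rw [mem_range] at ha
      have hmem : (a, c) ∈ lam.cells := by
        have := hl.mem x
        rw [hx, YoungDiagram.mem_cells] at this
        rw [YoungDiagram.mem_cells]
        exact lam.up_left_mem (by omega) le_rfl this
      obtain ⟨y, hy1, hy2⟩ := hl.surj _ hmem
      refine ⟨y, ?_, hy1⟩
      simp only [mem_filter, mem_univ, true_and]
      simp only at hy1 hy2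
      exact ⟨by omega, hy2⟩
    have h3 : (range k) ⊆ (univ.filter fun x => rl x < k ∧ cl x = c).image rl := by
      intro a ha
      obtain ⟨y, hy, hya⟩ := h2 a ha
      exact mem_image.mpr ⟨y, hy, hya⟩
    exact h1.trans ((card_le_card h3).trans card_image_le)
  · push Not at h
    refine card_le_card ?_
    intro x hx
    simp only [mem_filter, mem_univ, true_and] at hx ⊢
    exact ⟨h x hx.2, hx.2⟩

theorem count_eq_sum (F cl : X → ℕ) (k : ℕ) :
    (univ.filter fun x => F x < k).card =
      ∑ c ∈ univ.image cl, (univ.filter fun x => F x < k ∧ cl x = c).card := by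
  rw [card_eq_sum_card_fiberwise (f := cl) (t := univ.image cl)
    (fun x _ => mem_image_of_mem _ (mem_univ x))]
  refine sum_congr rfl fun c _ => ?_
  rw [filter_filter]

/-- Dominance: a word which is injective on the columns has no more small values than the
row labels. -/
theorem count_le {lam : YoungDiagram} {rl cl : X → ℕ} (hl : IsLabel lam.cells rl cl)
    (u : X → ℕ) (hu : ∀ x y, cl x = cl y → u x = u y → x = y) (k : ℕ) :
    (univ.filter fun x => u x < k).card ≤ (univ.filter fun x => rl x < k).card := by
  rw [count_eq_sum u cl, count_eq_sum rl cl]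
  exact sum_le_sum fun c _ => col_count_le hl u hu k c

/-- In the case of equality the word is a column permutation of the row labels. -/
theorem exists_stab {lam : YoungDiagram} {rl cl : X → ℕ} (hl : IsLabel lam.cells rl cl)
    (u : X → ℕ) (hu : ∀ x y, cl x = cl y → u x = u y → x = y)
    (hc : ∀ k, (univ.filter fun x => u x < k).card = (univ.filter fun x => rl x < k).card) :
    ∃ π ∈ stab cl, u = rl ∘ ⇑π := by
  have key : ∀ k, ∀ c, (univ.filter fun x => u x < k ∧ cl x = c).card =
      (univ.filter fun x => rl x < k ∧ cl x = c).card := by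
    intro k c
    by_cases hcm : c ∈ univ.image cl
    · have h1 := hc k
      rw [count_eq_sum u cl, count_eq_sum rl cl] at h1
      exact (sum_eq_sum_iff_of_le (fun c _ => col_count_le hl u hu k c)).mp h1 c hcm
    · have h0 : ∀ F : X → ℕ, (univ.filter fun x => F x < k ∧ cl x = c).card = 0 := by
        intro F
        rw [card_eq_zero, filter_eq_empty_iff]
        rintro x - ⟨-, hx⟩
        exact hcm (mem_image.mpr ⟨x, mem_univ _, hx⟩)
      rw [h0, h0]
  have step : ∀ (F : X → ℕ) (k c : ℕ), (univ.filter fun x => F x < k + 1 ∧ cl x = c).card =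
      (univ.filter fun x => F x < k ∧ cl x = c).card +
        (univ.filter fun x => (F x, cl x) = (k, c)).card := by
    intro F k c
    rw [← card_union_of_disjoint]
    · congr 1
      ext x
      simp only [mem_filter, mem_univ, true_and, mem_union, Prod.mk.injEq]
      omega
    · rw [disjoint_left]
      intro x hx hx'
      simp only [mem_filter, mem_univ, true_and, Prod.mk.injEq] at hx hx'
      omega
  obtain ⟨π, hπ⟩ := exists_perm_of_fiber (fun x => (u x, cl x)) (fun x => (rl x, cl x)) (by
    rintro ⟨k, c⟩
    have h1 := step u k c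
    have h2 := step rl k c
    have h3 := key (k + 1) c
    have h4 := key k c
    omega)
  refine ⟨π, ?_, ?_⟩
  · rw [mem_stab]
    intro x
    exact (Prod.mk.inj (hπ x)).2
  · funext x
    exact (Prod.mk.inj (hπ x)).1.symm

/-- The row labels of a labelling count the cells in the first rows. -/
theorem count_label {lam : YoungDiagram} {rl cl : X → ℕ} (hl : IsLabel lam.cells rl cl) (k : ℕ) :
    (univ.filter fun x => rl x < k).card = cnt lam k := by
  unfold cnt
  refine card_bij (fun x _ => (rl x, cl x)) ?_ ?_ ?_
  · intro x hx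
    simp only [mem_filter, mem_univ, true_and] at hx ⊢
    exact ⟨hl.mem x, hx⟩
  · intro x _ y _ hxy
    exact hl.inj x y (Prod.mk.inj hxy).1 (Prod.mk.inj hxy).2
  · intro c hc
    rw [mem_filter] at hc
    obtain ⟨x, h1, h2⟩ := hl.surj c hc.1
    refine ⟨x, ?_, Prod.ext h1 h2⟩
    simp only [mem_filter, mem_univ, true_and]
    rw [h1]
    exact hc.2

theorem cnt_succ (lam : YoungDiagram) (k : ℕ) : cnt lam (k + 1) = cnt lam k + lam.rowLen k := by
  unfold cnt
  rw [YoungDiagram.rowLen_eq_card, ← card_union_of_disjoint]
  · congr 1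
    ext c
    simp only [mem_filter, mem_union, YoungDiagram.mem_row_iff, YoungDiagram.mem_cells]
    constructor
    · rintro ⟨h1, h2⟩
      rcases Nat.lt_or_ge c.1 k with h3 | h3
      · exact Or.inl ⟨h1, h3⟩
      · exact Or.inr ⟨h1, by omega⟩
    · rintro (⟨h1, h2⟩ | ⟨h1, h2⟩)
      · exact ⟨h1, by omega⟩
      · exact ⟨h1, by omega⟩
  · rw [disjoint_left]
    intro c hc hc'
    rw [mem_filter] at hc
    rw [YoungDiagram.mem_row_iff] at hc'
    omega

theorem eq_of_cnt {lam mu : YoungDiagram} (h : ∀ k, cnt lam k = cnt mu k) : lam = mu := by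
  have hr : ∀ k, lam.rowLen k = mu.rowLen k := by
    intro k
    have h1 := cnt_succ lam k
    have h2 := cnt_succ mu k
    have h3 := h k
    have h4 := h (k + 1)
    omega
  apply YoungDiagram.ext
  ext ⟨a, b⟩
  rw [YoungDiagram.mem_cells, YoungDiagram.mem_cells, YoungDiagram.mem_iff_lt_rowLen,
    YoungDiagram.mem_iff_lt_rowLen, hr]

/-- The labelling attached to a bijection onto the cells. -/
theorem isLabel_of_equiv {lam : YoungDiagram} (t : X ≃ lam.cells) :
    IsLabel lam.cells (fun x => (t x).1.1) (fun x => (t x).1.2) where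
  mem x := (t x).2
  inj x y h1 h2 := t.injective (Subtype.ext (Prod.ext h1 h2))
  surj c hc := ⟨t.symm ⟨c, hc⟩, by simp, by simp⟩

/-- Every labelling comes from a bijection onto the cells. -/
theorem exists_equiv_of_isLabel {lam : YoungDiagram} {rl cl : X → ℕ}
    (hl : IsLabel lam.cells rl cl) :
    ∃ t : X ≃ lam.cells, (fun x => (t x).1.1) = rl ∧ (fun x => (t x).1.2) = cl := by
  have hbij : Function.Bijective (fun x : X => (⟨(rl x, cl x), hl.mem x⟩ : lam.cells)) := by
    constructor
    · intro x y hxy
      have h1 : rl x = rl y ∧ cl x = cl y := by simpa using hxy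
      exact hl.inj x y h1.1 h1.2
    · rintro ⟨⟨a, b⟩, hab⟩
      obtain ⟨x, hx1, hx2⟩ := hl.surj (a, b) hab
      refine ⟨x, ?_⟩
      simp only [Subtype.mk.injEq, Prod.mk.injEq]
      exact ⟨hx1, hx2⟩
  exact ⟨Equiv.ofBijective _ hbij, rfl, rfl⟩

end Count

end Vale.Agent.P197.H328
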