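import Vale.Agent.P197.H328.Main

/-!
# An explicit cyclic vector in the tensor square of the staircase representation (helper328)
-/

namespace Vale.Agent.P197.H328

open Equiv Finset Vale.Agent.P197
open scoped TensorProduct

noncomputable section

section Staircases

variable {N m : ℕ}

theorem stair_of_label {X : Type} {i j : X → ℕ} (h : IsLabel (staircase m).cells i j) :
    IsStair m i j where
  lt x := by
    have := h.mem x
    rw [YoungDiagram.mem_cells, mem_staircase] at this
    exact this
  inj := h.inj
  surj a b hab := h.surj (a, b) (by rw [YoungDiagram.mem_cells, mem_staircase]; exact hab)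

theorem label_of_stair {X : Type} {i j : X → ℕ} (h : IsStair m i j) :
    IsLabel (staircase m).cells i j where
  mem x := by
    rw [YoungDiagram.mem_cells, mem_staircase]
    exact h.lt x
  inj := h.inj
  surj c hc := by
    rw [YoungDiagram.mem_cells, mem_staircase] at hc
    exact h.surj c.1 c.2 hc

/-- Two orthogonal labellings with the fibre sizes of a staircase label a staircase. -/
theorem stair_of_inj (r : Fin N → ℕ) (hr : ∀ i, Nat.card {x // r x = i} = m - i)
    (g : Perm (Fin N)) (hg : Function.Injective fun x => (r x, r (g x))) :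
    IsStair m (r ∘ ⇑(g⁻¹ : Perm (Fin N))) r := by
  obtain ⟨cl, hl⟩ := exists_row_label r hr
  have hl' := label_symm hl
  set u : Fin N → ℕ := r ∘ ⇑(g⁻¹ : Perm (Fin N)) with hu
  have hinj : ∀ x y, r x = r y → u x = u y → x = y := by
    intro x y h1 h2
    have h3 : g⁻¹ x = g⁻¹ y := by
      apply hg
      simp only [Prod.mk.injEq]
      refine ⟨h2, ?_⟩
      simpa using h1
    exact (g⁻¹).injective h3
  have hcount : ∀ k, (univ.filter fun x => u x < k).card = (univ.filter fun x => cl x < k).card := by
    intro k
    rw [hu, count_comp, count_label hl, count_label hl']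
  obtain ⟨π, hπ, hπu⟩ := exists_stab hl' u hinj hcount
  have h1 := Conj.label_comp hl' π
  rw [mem_stab_iff.mp hπ, ← hπu] at h1
  exact stair_of_label h1

/-- Orthogonal labellings exist. -/
theorem exists_orthogonal (r : Fin N → ℕ) (hr : ∀ i, Nat.card {x // r x = i} = m - i) :
    ∃ g : Perm (Fin N), Function.Injective fun x => (r x, r (g x)) := by
  obtain ⟨cl, hl⟩ := exists_row_label r hr
  have hl' := label_symm hl
  have hfib : ∀ (F : Fin N → ℕ) (k : ℕ), (univ.filter fun x => F x < k + 1).card =
      (univ.filter fun x => F x < k).card + (univ.filter fun x => F x = k).card := by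
    intro F k
    rw [← card_union_of_disjoint]
    · congr 1
      ext x
      simp only [mem_filter, mem_univ, true_and, mem_union]
      omega
    · rw [disjoint_left]
      intro x hx hx'
      simp only [mem_filter, mem_univ, true_and] at hx hx'
      omega
  obtain ⟨g, hg⟩ := exists_perm_of_fiber cl r (by
    intro k
    have h1 := hfib cl k
    have h2 := hfib r k
    rw [count_label hl', count_label hl'] at h1
    rw [count_label hl, count_label hl] at h2
    omega)
  refine ⟨g, ?_⟩
  intro x y hxy
  simp only [hg, Prod.mk.injEq] at hxy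
  exact hl.inj x y hxy.1 hxy.2

end Staircases

section Cyclic

variable {G : Type} [Group G]

/-- The subrepresentation generated by a vector. -/
def cyc {V : Type} [AddCommGroup V] [Module ℂ V] (τ : Representation ℂ G V) (u : V) :
    Subrepresentation τ where
  toSubmodule := Submodule.span ℂ (Set.range fun g => τ g u)
  apply_mem_toSubmodule := by
    intro g v hv
    have h1 : Submodule.span ℂ (Set.range fun g => τ g u) ≤
        (Submodule.span ℂ (Set.range fun g => τ g u)).comap (τ g) := by
      rw [Submodule.span_le]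
      rintro _ ⟨h, rfl⟩
      refine Submodule.subset_span ⟨g * h, ?_⟩
      simp [map_mul]
    exact h1 hv

variable [Fintype G]

/-- If the group algebra acts faithfully on the submodule generated by `w₁ ⊗ w₂` then the products
of the corresponding matrix coefficients and their translates span all functions. -/
theorem span_eq_top_of_cyc {V : Type} [AddCommGroup V] [Module ℂ V] [Module.Finite ℂ V]
    (σ : Representation ℂ G V) (w₁ w₂ : V)
    (hσ : ∀ a : G → ℂ, (∀ h, ∑ k : G, a k • (σ.tprod σ) k (σ h w₁ ⊗ₜ[ℂ] σ h w₂) = 0) → a = 0) :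
    Submodule.span ℂ {F : G → ℂ | ∃ (φ ψ : Module.Dual ℂ V) (h : G),
      F = fun k => φ (σ (k * h) w₁) * ψ (σ (k * h) w₂)} = ⊤ := by
  classical
  by_contra hne
  obtain ⟨L, hL, hle⟩ := Submodule.exists_le_ker_of_lt_top _ (lt_top_iff_ne_top.mpr hne)
  have hLa : ∀ F : G → ℂ, L F = ∑ g : G, L (Pi.single g 1) * F g := by
    intro F
    conv_lhs => rw [← Finset.univ_sum_single F]
    rw [map_sum]
    refine Finset.sum_congr rfl fun g _ => ?_
    have : Pi.single g (F g) = F g • (Pi.single g (1 : ℂ) : G → ℂ) := by
      rw [← Pi.single_smul, smul_eq_mul, mul_one]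
    rw [this, map_smul, smul_eq_mul, mul_comm]
  have h0 : (fun g => L (Pi.single g 1)) = 0 := by
    apply hσ
    intro h
    let B := Module.finBasis ℂ V
    apply (B.tensorProduct B).repr.injective
    rw [map_zero]
    ext ⟨i, j⟩
    rw [map_sum, Finsupp.finsetSum_apply, Finsupp.zero_apply]
    have h1 : L (fun k => B.coord i (σ (k * h) w₁) * B.coord j (σ (k * h) w₂)) = 0 :=
      hle (Submodule.subset_span ⟨B.coord i, B.coord j, h, rfl⟩)
    rw [hLa] at h1
    rw [← h1]
    refine Finset.sum_congr rfl fun g _ => ?_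
    rw [map_smul, Finsupp.smul_apply, Representation.tprod_apply, TensorProduct.map_tmul,
      Module.Basis.tensorProduct_repr_tmul_apply, smul_eq_mul, smul_eq_mul,
      Module.Basis.coord_apply, Module.Basis.coord_apply, map_mul, Module.End.mul_apply,
      Module.End.mul_apply]
    ring
  apply hL
  refine LinearMap.ext fun F => ?_
  rw [hLa]
  refine Finset.sum_eq_zero fun g _ => ?_
  have := congrFun h0 g
  simp only [Pi.zero_apply] at this
  rw [this, zero_mul]

omit [Fintype G] in
/-- Faithfulness passes to subgroups. -/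
theorem faithful_sub [Fintype G] {H : Type} [Group H] [Fintype H] {U : Type} [AddCommGroup U]
    [Module ℂ U] (σ : Representation ℂ G U)
    (hσ : ∀ a : G → ℂ, (∀ u, ∑ g : G, a g • σ g u = 0) → a = 0)
    (f : H →* G) (hf : Function.Injective f) (a : H → ℂ)
    (ha : ∀ u, ∑ h : H, a h • (σ.comp f) h u = 0) : a = 0 := by
  classical
  let a' : G → ℂ := fun g => ∑ h : H, if f h = g then a h else 0
  have h0 : a' = 0 := by
    apply hσ
    intro u
    rw [← ha u]
    simp only [a', Finset.sum_smul, ite_smul, zero_smul]
    rw [Finset.sum_comm]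
    refine Finset.sum_congr rfl fun h _ => ?_
    rw [Finset.sum_ite_eq]
    simp
  funext h
  have h1 := congrFun h0 (f h)
  simp only [a', Pi.zero_apply] at h1
  rw [Finset.sum_eq_single h] at h1
  · simpa using h1
  · intro h' _ hne
    rw [if_neg fun he => hne (hf he)]
  · intro hh
    exact absurd (Finset.mem_univ _) hh

/-- Faithfulness passes to tensor products with nonzero representations. -/
theorem faithful_tprod {U B : Type} [AddCommGroup U] [Module ℂ U] [AddCommGroup B] [Module ℂ B]
    [Nontrivial B] (μ : Representation ℂ G U) (β : Representation ℂ G B)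
    (hμ : ∀ a : G → ℂ, (∀ u, ∑ g : G, a g • μ g u = 0) → a = 0) (a : G → ℂ)
    (ha : ∀ z, ∑ g : G, a g • (μ.tprod β) g z = 0) : a = 0 := by
  obtain ⟨y, hy⟩ := exists_ne (0 : B)
  have hψ : ∃ ψ : Module.Dual ℂ B, ψ y ≠ 0 := by
    by_contra hcon
    push Not at hcon
    exact hy ((Module.forall_dual_apply_eq_zero_iff ℂ y).mp hcon)
  obtain ⟨ψ, hψ⟩ := hψ
  funext k
  have h0 : (fun g => a g * ψ (β g (β k⁻¹ y))) = 0 := by
    apply hμ
    intro u
    have h1 := congrArg ((TensorProduct.rid ℂ U).toLinearMap ∘ₗ
      TensorProduct.map (LinearMap.id : U →ₗ[ℂ] U) ψ) (ha (u ⊗ₜ[ℂ] β k⁻¹ y))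
    rw [map_zero, map_sum] at h1
    rw [← h1]
    refine Finset.sum_congr rfl fun g _ => ?_
    rw [map_smul, Representation.tprod_apply, TensorProduct.map_tmul, LinearMap.comp_apply,
      TensorProduct.map_tmul]
    simp [mul_smul]
  have h2 := congrFun h0 k
  simp only [Pi.zero_apply] at h2
  rw [← Module.End.mul_apply, ← map_mul, mul_inv_cancel, map_one, Module.End.one_apply] at h2
  exact (mul_eq_zero.mp h2).resolve_right hψ

end Cyclic

section CycGeneral

variable {n : ℕ}

set_option maxSynthPendingDepth 3 in
/-- If no Young symmetrizer `R⁺ C⁻` vanishes on the submodule generated by `x` then the group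
algebra acts faithfully on this submodule. -/
theorem faithful_of_symm {U : Type} [AddCommGroup U] [Module ℂ U] [Module.Finite ℂ U]
    (S : Representation ℂ (Perm (Fin n)) U) (x : U)
    (h : ∀ ν : YoungDiagram, ν.card = n → ∃ t : Fin n ≃ ν.cells,
      ∃ u ∈ Submodule.span ℂ (Set.range fun g => S g x),
        ∑ g ∈ stab (fun x => (t x).1.1), S g (∑ π ∈ stab (fun x => (t x).1.2),
          ((Perm.sign π : ℤ) : ℂ) • S π u) ≠ 0)
    (a : Perm (Fin n) → ℂ) (ha : ∀ h, ∑ k : Perm (Fin n), a k • S k (S h x) = 0) : a = 0 := by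
  classical
  let C : Subrepresentation S := cyc S x
  refine faithful_of_specht C.toRepresentation ?_ a ?_
  · intro lam hlam
    obtain ⟨t, u, hu, hne⟩ := h lam hlam
    have hu0 : ∑ g ∈ stab (fun x => (t x).1.1), C.toRepresentation g
        (∑ π ∈ stab (fun x => (t x).1.2), ((Perm.sign π : ℤ) : ℂ) •
          C.toRepresentation π ⟨u, hu⟩) ≠ 0 := by
      intro h0
      apply hne
      have h1 := congrArg (fun z : C.toSubmodule => (z : U)) h0
      simp only [Submodule.coe_zero, Submodule.coe_sum] at h1
      rw [← h1]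
      refine Finset.sum_congr rfl fun g _ => ?_
      change _ = S g ((∑ π ∈ stab (fun x => (t x).1.2), ((Perm.sign π : ℤ) : ℂ) •
          C.toRepresentation π ⟨u, hu⟩ : C.toSubmodule) : U)
      rw [Submodule.coe_sum]
      rfl
    obtain ⟨u', hu'⟩ := exists_flip C.toRepresentation _ _ _ hu0
    exact exists_intertwining C.toRepresentation t u' hu'
  · rintro ⟨u, hu⟩
    apply Subtype.ext
    rw [Submodule.coe_sum, Submodule.coe_zero]
    change ∑ k : Perm (Fin n), a k • S k u = 0
    have h1 : Submodule.span ℂ (Set.range fun g => S g x) ≤ LinearMap.ker (act a S) := by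
      rw [Submodule.span_le]
      rintro _ ⟨h, rfl⟩
      rw [SetLike.mem_coe, LinearMap.mem_ker, act_apply]
      exact ha h
    have h2 := h1 hu
    rw [LinearMap.mem_ker, act_apply] at h2
    exact h2

end CycGeneral

section StairCyc

variable {N m : ℕ}

set_option maxSynthPendingDepth 3 in
/-- The group algebra acts faithfully on the submodule generated by `e0 ⊗ e1`. -/
theorem faithful_cyc {i j : Fin N → ℕ} (hs : IsStair m i j) (hN : m * (m + 1) / 2 = N)
    (a : Perm (Fin N) → ℂ)
    (ha : ∀ h, ∑ k : Perm (Fin N), a k •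
      ((specht N (staircase m)).tprod (specht N (staircase m))) k
        ((specht N (staircase m) h ⟨e0 m i j, e0_mem hs⟩) ⊗ₜ[ℂ]
          (specht N (staircase m) h ⟨e1 m i j, e1_mem hs⟩)) = 0) : a = 0 := by
  classical
  refine faithful_of_symm ((specht N (staircase m)).tprod (specht N (staircase m)))
        ((⟨e0 m i j, e0_mem hs⟩ : spechtSub N (staircase m)) ⊗ₜ[ℂ]
          (⟨e1 m i j, e1_mem hs⟩ : spechtSub N (staircase m))) ?_ a ha
  intro ν hν
  obtain ⟨b, Q, hg, rl, cl, hl, hF⟩ := T_all m (Fin N) i j hs ν (by rw [hN]; exact hν)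
  obtain ⟨k, hk⟩ := exists_gen_of_occ hg rl cl hF
  obtain ⟨t, ht1, ht2⟩ := exists_equiv_of_isLabel hl
  refine ⟨t, ((specht N (staircase m)).tprod (specht N (staircase m))) k
    ((⟨e0 m i j, e0_mem hs⟩ : spechtSub N (staircase m)) ⊗ₜ[ℂ]
      (⟨e1 m i j, e1_mem hs⟩ : spechtSub N (staircase m))), Submodule.subset_span ⟨k, rfl⟩, ?_⟩
  rw [ht1, ht2]
  intro hzero
  apply hk
  have h2 := congrArg (tensorForm (staircase m) (staircase m) b) hzero
  rw [map_zero] at h2
  rw [← h2, map_sum]
  unfold occ
  refine Finset.sum_congr rfl fun ρ _ => ?_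
  rw [map_sum, map_sum]
  refine Finset.sum_congr rfl fun π _ => ?_
  rw [map_smul, map_smul, smul_eq_mul]
  congr 1
  unfold Fn
  rw [Representation.tprod_apply, Representation.tprod_apply, Representation.tprod_apply,
    TensorProduct.map_tmul, TensorProduct.map_tmul, TensorProduct.map_tmul, tensorForm_tmul]
  have e : ∀ v : spechtSub N (staircase m),
      ((specht N (staircase m) ρ (specht N (staircase m) π (specht N (staircase m) k v))).1) =
        wordRep (Fin N) (ρ * π) (wordRep (Fin N) k v.1) := by
    intro v
    rw [map_mul]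
    rfl
  rw [e, e]

end StairCyc

end

end Vale.Agent.P197.H328
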