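import Mathlib.RepresentationTheory.Intertwining
import Mathlib.GroupTheory.Perm.Sign
import Mathlib.Analysis.Complex.Basic

/-!
# Definitions for the intrinsic form of Saxl's conjecture (helper328)
-/

namespace Vale.Agent.P197.H328

open Equiv
open scoped TensorProduct

variable {N : ℕ} {V : Type} [AddCommGroup V] [Module ℂ V]

/-- `v` and `w` are not zero and, for every permutation `π` which preserves the function `r`,
`π v = v` and `π w = sign π • w`. -/
def FixedSign (r : Fin N → ℕ) (σ : Representation ℂ (Perm (Fin N)) V) (v w : V) : Prop :=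
  v ≠ 0 ∧ w ≠ 0 ∧ ∀ π : Perm (Fin N), r ∘ π = r →
    σ π v = v ∧ σ π w = ((Perm.sign π : ℤ) : ℂ) • w

/-- The submodule of `V ⊗ V` generated by the vector `w ⊗ g w`. -/
def pureGen (σ : Representation ℂ (Perm (Fin N)) V) (w : V) (g : Perm (Fin N)) :
    Submodule ℂ (V ⊗[ℂ] V) :=
  Submodule.span ℂ (Set.range fun h : Perm (Fin N) => σ h w ⊗ₜ[ℂ] σ (h * g) w)

/-- For all nonzero representations `A` and `B` of every group `H` embedded in the symmetric group
there is a nonzero `H`-equivariant map from `A` to `V ⊗ V ⊗ B` with values in `U ⊗ B`. -/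
def Universal (σ : Representation ℂ (Perm (Fin N)) V) (U : Submodule ℂ (V ⊗[ℂ] V)) : Prop :=
  ∀ (H : Type) [Group H] (f : H →* Perm (Fin N)), Function.Injective f →
    ∀ (A B : Type) [AddCommGroup A] [Module ℂ A] [Nontrivial A] [AddCommGroup B] [Module ℂ B]
      [Nontrivial B] (α : Representation ℂ H A) (β : Representation ℂ H B),
      ∃ T : α.IntertwiningMap (Representation.tprod ((σ.tprod σ).comp f) β),
        T ≠ 0 ∧ ∀ x, T x ∈ Submodule.span ℂ {z | ∃ u ∈ U, ∃ b : B, z = u ⊗ₜ[ℂ] b}

/-- The functions `k ↦ φ (k h w) * ψ (k h g w)` on the symmetric group, where `φ`, `ψ` are linear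
functionals and `h` is a permutation: products of two matrix coefficients. -/
def coeffProducts (σ : Representation ℂ (Perm (Fin N)) V) (w : V) (g : Perm (Fin N)) :
    Set (Perm (Fin N) → ℂ) :=
  {F | ∃ (φ ψ : V →ₗ[ℂ] ℂ) (h : Perm (Fin N)),
    ∀ k, F k = φ (σ (k * h) w) * ψ (σ (k * h * g) w)}

end Vale.Agent.P197.H328
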