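import Vale.Agent.P197.H328.Class
import Mathlib.RepresentationTheory.Maschke
import Mathlib.RepresentationTheory.Semisimple

/-!
# The group algebra acts faithfully on a representation containing all Specht modules (helper328)
-/

namespace Vale.Agent.P197.H328

open Equiv Finset Vale.Agent.P197
open scoped TensorProduct

noncomputable section

section General

variable {G : Type} [Group G] [Fintype G]

/-- The action of the element `∑ a g g` of the group algebra. -/
def act (a : G → ℂ) {W : Type} [AddCommGroup W] [Module ℂ W] (τ : Representation ℂ G W) :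
    W →ₗ[ℂ] W := ∑ g : G, a g • τ g

theorem act_apply (a : G → ℂ) {W : Type} [AddCommGroup W] [Module ℂ W]
    (τ : Representation ℂ G W) (w : W) : act a τ w = ∑ g : G, a g • τ g w := by
  simp [act, LinearMap.sum_apply]

theorem act_map (a : G → ℂ) {W U : Type} [AddCommGroup W] [Module ℂ W] [AddCommGroup U]
    [Module ℂ U] (τ : Representation ℂ G W) (σ : Representation ℂ G U)
    (f : τ.IntertwiningMap σ) (w : W) : f (act a τ w) = act a σ (f w) := by
  rw [act_apply, act_apply, map_sum]
  refine Finset.sum_congr rfl fun g _ => ?_
  rw [map_smul, f.isIntertwining]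

set_option maxSynthPendingDepth 3 in
/-- An element of the group algebra which acts as zero on all irreducible representations acts as
zero on all finite-dimensional representations. -/
theorem act_eq_zero (a : G → ℂ)
    (h : ∀ (W : Type) [AddCommGroup W] [Module ℂ W] (τ : Representation ℂ G W),
      τ.IsIrreducible → act a τ = 0) (d : ℕ) :
    ∀ (W : Type) [AddCommGroup W] [Module ℂ W] [Module.Finite ℂ W] (τ : Representation ℂ G W),
      Module.finrank ℂ W ≤ d → act a τ = 0 := by
  induction d with
  | zero =>
    intro W _ _ _ τ hd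
    have h0 : Module.finrank ℂ W = 0 := by omega
    have : Subsingleton W := Module.finrank_zero_iff.mp h0
    exact Subsingleton.elim _ _
  | succ d ih =>
    intro W _ _ _ τ hd
    by_cases hirr : τ.IsIrreducible
    · exact h W τ hirr
    by_cases hnt : Nontrivial (Subrepresentation τ)
    · have hP : ∃ P : Subrepresentation τ, P ≠ ⊥ ∧ P ≠ ⊤ := by
        by_contra hcon
        push Not at hcon
        apply hirr
        refine { eq_bot_or_eq_top := ?_ }
        intro P
        by_cases hb : P = ⊥
        · exact Or.inl hb
        · exact Or.inr (hcon P hb)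
      obtain ⟨P, hP1, hP2⟩ := hP
      obtain ⟨Q, hPQ⟩ := exists_isCompl P
      have hsup : P.toSubmodule ⊔ Q.toSubmodule = ⊤ := by
        have h1 := hPQ.sup_eq_top
        have h2 := congrArg Subrepresentation.toSubmodule h1
        rw [Subrepresentation.toSubmodule_sup] at h2
        exact h2
      have hP3 : P.toSubmodule ≠ ⊤ := fun h1 => hP2 (Subrepresentation.toSubmodule_injective h1)
      have hQ3 : Q.toSubmodule ≠ ⊤ := by
        intro h1
        have h2 : Q = ⊤ := Subrepresentation.toSubmodule_injective h1
        rw [h2] at hPQ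
        exact hP1 (eq_bot_of_isCompl_top hPQ)
      have key : ∀ R : Subrepresentation τ, R.toSubmodule ≠ ⊤ → ∀ w ∈ R.toSubmodule,
          act a τ w = 0 := by
        intro R hR w hw
        have h1 : Module.finrank ℂ R.toSubmodule < Module.finrank ℂ W :=
          Submodule.finrank_lt hR
        have h2 := ih R.toSubmodule R.toRepresentation (by omega)
        have h3 := congrArg (fun F : R.toSubmodule →ₗ[ℂ] R.toSubmodule => (F ⟨w, hw⟩ : W)) h2
        simp only [act_apply, LinearMap.zero_apply, Submodule.coe_sum, Submodule.coe_zero] at h3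
        rw [act_apply]
        exact h3
      ext w
      have hw : w ∈ P.toSubmodule ⊔ Q.toSubmodule := by rw [hsup]; exact Submodule.mem_top
      obtain ⟨p, hp, q, hq, rfl⟩ := Submodule.mem_sup.mp hw
      rw [map_add, key P hP3 p hp, key Q hQ3 q hq, add_zero]
      rfl
    · have h1 : (⊥ : Subrepresentation τ) = ⊤ := by
        by_contra hne
        exact hnt ⟨⊥, ⊤, hne⟩
      ext w
      have h2 : w ∈ (⊤ : Subrepresentation τ) := Submodule.mem_top
      rw [← h1] at h2
      have h3 : w = 0 := h2
      rw [h3, map_zero]
      rfl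

/-- The regular representation on functions. -/
def regRep (G : Type) [Group G] : Representation ℂ G (G → ℂ) where
  toFun g := LinearMap.funLeft ℂ ℂ fun x => x * g
  map_one' := by
    ext F x
    simp [LinearMap.funLeft_apply]
  map_mul' g h := by
    refine LinearMap.ext fun F => funext fun x => ?_
    simp [LinearMap.funLeft_apply, mul_assoc]

theorem regRep_apply (g : G) (F : G → ℂ) (x : G) : regRep G g F x = F (x * g) := rfl

/-- An element of the group algebra which acts as zero on all irreducible representations is
zero. -/
theorem eq_zero_of_act (a : G → ℂ)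
    (h : ∀ (W : Type) [AddCommGroup W] [Module ℂ W] (τ : Representation ℂ G W),
      τ.IsIrreducible → act a τ = 0) : a = 0 := by
  classical
  have h1 := act_eq_zero a h _ (G → ℂ) (regRep G) le_rfl
  funext g
  have h2 := congrArg (fun F : (G → ℂ) →ₗ[ℂ] (G → ℂ) => F (Pi.single g 1) 1) h1
  simp only [act_apply, Finset.sum_apply, Pi.smul_apply, regRep_apply, one_mul, smul_eq_mul,
    LinearMap.zero_apply, Pi.zero_apply] at h2
  rw [Finset.sum_eq_single g] at h2
  · simpa using h2
  · intro g' _ hne
    rw [Pi.single_eq_of_ne hne, mul_zero]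
  · intro hg
    exact absurd (Finset.mem_univ g) hg

/-- If the group algebra acts faithfully on `U` then every nonzero representation of a subgroup has
a nonzero equivariant map to `U`. -/
theorem exists_map_of_faithful {U : Type} [AddCommGroup U] [Module ℂ U]
    (σ : Representation ℂ G U) (hσ : ∀ a : G → ℂ, (∀ u, ∑ g : G, a g • σ g u = 0) → a = 0)
    {H : Type} [Group H] (f : H →* G) (hf : Function.Injective f)
    {W : Type} [AddCommGroup W] [Module ℂ W] [Nontrivial W] (τ : Representation ℂ H W) :
    ∃ T : τ.IntertwiningMap (σ.comp f), T ≠ 0 := by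
  classical
  have : Finite H := Finite.of_injective f hf
  have : Fintype H := Fintype.ofFinite H
  obtain ⟨w, hw⟩ := exists_ne (0 : W)
  have hφ : ∃ φ : Module.Dual ℂ W, φ w ≠ 0 := by
    by_contra hcon
    push Not at hcon
    exact hw ((Module.forall_dual_apply_eq_zero_iff ℂ w).mp hcon)
  obtain ⟨φ, hφ⟩ := hφ
  let a : G → ℂ := fun g => ∑ h : H, if f h = g then φ (τ h⁻¹ w) else 0
  have ha : a (f 1) = φ w := by
    simp only [a]
    rw [Finset.sum_eq_single (1 : H)]
    · simp
    · intro h _ hne
      rw [if_neg fun he => hne (hf he)]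
    · intro h
      exact absurd (Finset.mem_univ _) h
  have hne : ∃ u : U, ∑ h : H, φ (τ h⁻¹ w) • σ (f h) u ≠ 0 := by
    by_contra hcon
    push Not at hcon
    have h0 : a = 0 := by
      apply hσ
      intro u
      rw [← hcon u]
      simp only [a, Finset.sum_smul, ite_smul, zero_smul]
      rw [Finset.sum_comm]
      refine Finset.sum_congr rfl fun h _ => ?_
      rw [Finset.sum_ite_eq]
      simp
    rw [h0] at ha
    exact hφ ha.symm
  obtain ⟨u, hu⟩ := hne
  let L : W →ₗ[ℂ] U := ∑ h : H, ((φ.comp (τ h⁻¹)).smulRight (σ (f h) u))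
  have hL : ∀ x, L x = ∑ h : H, φ (τ h⁻¹ x) • σ (f h) u := by
    intro x
    simp [L, LinearMap.sum_apply]
  refine ⟨L.intertwiningMap_of_isIntertwiningMap τ (σ.comp f) ?_, ?_⟩
  · intro k x
    rw [hL, hL, map_sum]
    refine Fintype.sum_equiv (Equiv.mulLeft k⁻¹) _ _ fun h => ?_
    rw [map_smul]
    simp only [Equiv.coe_mulLeft, MonoidHom.comp_apply]
    rw [← Module.End.mul_apply (τ h⁻¹), ← map_mul, ← Module.End.mul_apply (σ (f k)), ← map_mul,
      ← map_mul, mul_inv_rev, inv_inv, mul_inv_cancel_left]
  · intro h0
    apply hu
    rw [← hL]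
    exact congrArg (fun T : τ.IntertwiningMap (σ.comp f) => T w) h0

/-- If the group algebra acts faithfully on `V ⊗ V` then the products of two matrix coefficients
of `V` span all functions. -/
theorem span_eq_top_of_faithful {V : Type} [AddCommGroup V] [Module ℂ V] [Module.Finite ℂ V]
    (σ : Representation ℂ G V)
    (hσ : ∀ a : G → ℂ, (∀ u, ∑ g : G, a g • (σ.tprod σ) g u = 0) → a = 0) :
    Submodule.span ℂ {F : G → ℂ | ∃ (φ ψ : Module.Dual ℂ V) (v w : V),
      F = fun g => φ (σ g v) * ψ (σ g w)} = ⊤ := by
  classical
  by_contra hne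
  obtain ⟨L, hL, hle⟩ := Submodule.exists_le_ker_of_lt_top _ (lt_top_iff_ne_top.mpr hne)
  have hLa : ∀ F : G → ℂ, L F = ∑ g : G, L (Pi.single g 1) * F g := by
    intro F
    conv_lhs => rw [← Finset.univ_sum_single F]
    rw [map_sum]
    refine Finset.sum_congr rfl fun g _ => ?_
    have : Pi.single g (F g) = F g • (Pi.single g (1 : ℂ) : G → ℂ) := by
      rw [← Pi.single_smul, smul_eq_mul, mul_one]
    rw [this, map_smul, smul_eq_mul, mul_comm]
  have h0 : (fun g => L (Pi.single g 1)) = 0 := by
    apply hσ
    intro u
    let B := Module.finBasis ℂ V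
    induction u using TensorProduct.induction_on with
    | zero => simp
    | add x y hx hy => simp only [map_add, smul_add, Finset.sum_add_distrib, hx, hy, add_zero]
    | tmul v w =>
      apply (B.tensorProduct B).repr.injective
      rw [map_zero]
      ext ⟨i, j⟩
      rw [map_sum, Finsupp.finsetSum_apply, Finsupp.zero_apply]
      have h1 : L (fun g => B.coord i (σ g v) * B.coord j (σ g w)) = 0 :=
        hle (Submodule.subset_span ⟨B.coord i, B.coord j, v, w, rfl⟩)
      rw [hLa] at h1
      rw [← h1]
      refine Finset.sum_congr rfl fun g _ => ?_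
      rw [map_smul, Finsupp.smul_apply, Representation.tprod_apply, TensorProduct.map_tmul,
        Module.Basis.tensorProduct_repr_tmul_apply, smul_eq_mul, smul_eq_mul,
        Module.Basis.coord_apply, Module.Basis.coord_apply]
      ring
  apply hL
  refine LinearMap.ext fun F => ?_
  rw [hLa]
  refine Finset.sum_eq_zero fun g _ => ?_
  have := congrFun h0 g
  simp only [Pi.zero_apply] at this
  rw [this, zero_mul]

end General

set_option maxSynthPendingDepth 3 in
/-- A representation of the symmetric group with nonzero equivariant maps from all Specht modules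
is a faithful module over the group algebra. -/
theorem faithful_of_specht {n : ℕ} {U : Type} [AddCommGroup U] [Module ℂ U]
    (σ : Representation ℂ (Perm (Fin n)) U)
    (h : ∀ lam : YoungDiagram, lam.card = n → ∃ T : (specht n lam).IntertwiningMap σ, T ≠ 0)
    (a : Perm (Fin n) → ℂ) (ha : ∀ u, ∑ g : Perm (Fin n), a g • σ g u = 0) : a = 0 := by
  apply eq_zero_of_act a
  intro W _ _ τ hτ
  obtain ⟨lam, hlam, ⟨e⟩⟩ := classification τ hτ
  obtain ⟨T, hT⟩ := h lam hlam
  have hirr := specht_irreducible lam hlam
  have hTinj : Function.Injective T :=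
    (Representation.IsIrreducible.injective_or_eq_zero T).resolve_right hT
  ext w
  have h1 : T (e.toIntertwiningMap (act a τ w)) = 0 := by
    rw [act_map, act_map, act_apply, ha]
  have h2 : e.toIntertwiningMap (act a τ w) = 0 := hTinj (h1.trans (map_zero T).symm)
  exact e.toLinearEquiv.injective (h2.trans (map_zero e.toLinearEquiv).symm)

end

end Vale.Agent.P197.H328
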