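import Vale.Agent.P197.H328.Top
import Vale.Agent.P197.H328.Defs

/-!
# The main theorem in terms of the definitions of the hand-in (helper328)
-/

namespace Vale.Agent.P197.H328

open Equiv Finset Vale.Agent.P197
open scoped TensorProduct

/-- The main theorem. -/
theorem final (m N : ℕ) (r : Fin N → ℕ) (hr : ∀ i, Nat.card {x // r x = i} = m - i)
    (V : Type) [AddCommGroup V] [Module ℂ V] (σ : Representation ℂ (Perm (Fin N)) V)
    (hσ : σ.IsIrreducible) (v w : V) (h : FixedSign r σ v w) :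
    Nonempty (σ.Equiv (specht N (staircase m))) ∧
    ∀ g : Perm (Fin N), (Function.Injective fun x => (r x, r (g x))) →
      Universal σ (pureGen σ w g) ∧
      Submodule.span ℂ (coeffProducts σ w g) = ⊤ := by
  obtain ⟨hv, hw, hvw⟩ := h
  have hvf := fun π hπ => (hvw π hπ).1
  have hwf := fun π hπ => (hvw π hπ).2
  refine ⟨equiv_of_vectors σ hσ r hr v hv hvf w hw hwf, fun g hg => ?_⟩
  obtain ⟨h1, h2⟩ := top m N r hr V σ hσ v hv hvf w hw hwf g hg
  refine ⟨?_, ?_⟩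
  rotate_left
  · rw [← h1]
    congr 1
    ext F
    constructor
    · rintro ⟨φ, ψ, h, hF⟩
      exact ⟨φ, ψ, h, funext hF⟩
    · rintro ⟨φ, ψ, h, rfl⟩
      exact ⟨φ, ψ, h, fun k => rfl⟩
  intro H _ f hf A B _ _ _ _ _ _ α β
  obtain ⟨T, hT, hTx⟩ := h2 H f hf A B α β
  refine ⟨T, hT, fun x => ?_⟩
  refine (Submodule.span_mono ?_) (hTx x)
  rintro _ ⟨h, b, rfl⟩
  exact ⟨_, Submodule.subset_span ⟨h, rfl⟩, b, rfl⟩

/-- The staircase Specht module has the two vectors. -/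
theorem exists_fixedSign (m N : ℕ) (r : Fin N → ℕ)
    (hr : ∀ i, Nat.card {x // r x = i} = m - i) :
    ∃ v w : spechtSub N (staircase m), v ≠ 0 ∧ w ≠ 0 ∧ ∀ π : Perm (Fin N), r ∘ π = r →
      specht N (staircase m) π v = v ∧
        specht N (staircase m) π w = ((Perm.sign π : ℤ) : ℂ) • w := by
  obtain ⟨v, hv, hvf⟩ := exists_fixed r hr
  obtain ⟨w, hw, hwf⟩ := exists_sign r hr
  exact ⟨v, w, hv, hw, fun π hπ => ⟨hvf π hπ, hwf π hπ⟩⟩

end Vale.Agent.P197.H328
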