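import Vale.Agent.P197.H328.Comb
import Mathlib.RepresentationTheory.Character
import Mathlib.RepresentationTheory.Irreducible

/-!
# Specht modules are irreducible and pairwise not isomorphic (helper328)
-/

namespace Vale.Agent.P197.H328

open Equiv Finset Vale.Agent.P197

noncomputable section

section Kap

variable {X : Type} [Fintype X] [DecidableEq X]

/-- The signed sum over the column stabiliser. -/
def kap (c : X → ℕ) : WM X →ₗ[ℂ] WM X :=
  ∑ π ∈ stab c, ((Perm.sign π : ℤ) : ℂ) • wordRep X π

theorem kap_apply (c : X → ℕ) (v : WM X) :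
    kap c v = ∑ π ∈ stab c, ((Perm.sign π : ℤ) : ℂ) • wordRep X π v := by
  simp [kap, LinearMap.sum_apply]

theorem kap_single (c u : X → ℕ) (a : ℂ) : kap c (Finsupp.single u a) = a • polyt c u := by
  rw [kap_apply, polyt, smul_sum]
  refine sum_congr rfl fun π _ => ?_
  rw [wordRep_single, smul_comm a, Finsupp.smul_single, Finsupp.smul_single, Finsupp.smul_single]
  simp

theorem polyt_eq_zero (c u : X → ℕ) {x y : X} (hxy : x ≠ y) (hc : c x = c y) (hu : u x = u y) :
    polyt c u = 0 :=
  Conj.sum_stab_eq_zero c u x y hxy hc hu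

theorem polyt_comp (c r : X → ℕ) (π : Perm X) (hπ : π ∈ stab c) :
    polyt c (r ∘ ⇑π) = ((Perm.sign π : ℤ) : ℂ) • polyt c r := by
  have h1 := wordRep_mul_polyt 1 π⁻¹ c r (Conj.inv_mem_stab hπ)
  rw [one_mul, map_one, Perm.sign_inv, wordRep_polyt, inv_inv] at h1
  have h2 : c ∘ ⇑π = c := by
    funext x
    exact mem_stab.mp hπ x
  rw [h2] at h1
  exact h1

theorem wordRep_apply' (g : Perm X) (v : WM X) (w : X → ℕ) :
    wordRep X g v w = v (w ∘ ⇑g) := by
  have hinj : Function.Injective (fun u : X → ℕ => u ∘ ⇑(g⁻¹ : Perm X)) := by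
    intro u u' h
    funext x
    have := congrFun h (g x)
    simpa using this
  have h1 : w = (fun u : X → ℕ => u ∘ ⇑(g⁻¹ : Perm X)) (w ∘ ⇑g) := by
    funext x
    simp
  conv_lhs => rw [h1]
  exact Finsupp.mapDomain_apply hinj v _

/-- The words with prescribed numbers of small entries. -/
def Wd (X : Type) [Fintype X] (f : ℕ → ℕ) : Submodule ℂ (WM X) :=
  Finsupp.supported ℂ ℂ {u : X → ℕ | ∀ k, (univ.filter fun x => u x < k).card = f k}

theorem count_comp (u : X → ℕ) (π : Perm X) (k : ℕ) :
    (univ.filter fun x => (u ∘ ⇑π) x < k).card = (univ.filter fun x => u x < k).card := by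
  refine card_bij (fun x _ => π x) ?_ ?_ ?_
  · intro x hx
    simpa using hx
  · intro x _ y _ h
    exact π.injective h
  · intro y hy
    exact ⟨π⁻¹ y, by simpa using hy, by simp⟩

theorem polyt_mem_Wd {lam : YoungDiagram} {rl cl : X → ℕ} (hl : IsLabel lam.cells rl cl) :
    polyt cl rl ∈ Wd X (cnt lam) := by
  unfold polyt
  refine Submodule.sum_mem _ fun π _ => Submodule.smul_mem _ _ ?_
  refine Finsupp.single_mem_supported ℂ _ ?_
  intro k
  rw [count_comp, count_label hl]

theorem kap_eq_sum (c : X → ℕ) (v : WM X) : kap c v = ∑ u ∈ v.support, v u • polyt c u := by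
  conv_lhs => rw [← Finsupp.sum_single v]
  rw [Finsupp.sum, map_sum]
  refine sum_congr rfl fun u _ => ?_
  rw [kap_single]

/-- Dominance. -/
theorem dom_of_kap_ne_zero {lam mu : YoungDiagram} {rl cl : X → ℕ}
    (hl : IsLabel lam.cells rl cl) {v : WM X} (hv : v ∈ Wd X (cnt mu)) (hne : kap cl v ≠ 0)
    (k : ℕ) : cnt mu k ≤ cnt lam k := by
  rw [kap_eq_sum] at hne
  obtain ⟨u, hu, hne'⟩ := exists_ne_zero_of_sum_ne_zero hne
  have h1 : polyt cl u ≠ 0 := fun h => hne' (by rw [h, smul_zero])
  have h2 : ∀ x y, cl x = cl y → u x = u y → x = y := by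
    intro x y hc hxy
    by_contra hxy'
    exact h1 (polyt_eq_zero cl u hxy' hc hxy)
  have h3 := (Finsupp.mem_supported ℂ v).mp hv hu
  rw [← h3 k, ← count_label hl k]
  exact count_le hl u h2 k

theorem kap_mem_span {lam : YoungDiagram} {rl cl : X → ℕ}
    (hl : IsLabel lam.cells rl cl) {v : WM X} (hv : v ∈ Wd X (cnt lam)) :
    ∃ a : ℂ, kap cl v = a • polyt cl rl := by
  have hmem : kap cl v ∈ Submodule.span ℂ {polyt cl rl} := by
    rw [kap_eq_sum]
    refine Submodule.sum_mem _ fun u hu => Submodule.smul_mem _ _ ?_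
    by_cases h2 : ∀ x y, cl x = cl y → u x = u y → x = y
    · have h3 := (Finsupp.mem_supported ℂ v).mp hv hu
      obtain ⟨π, hπ, rfl⟩ := exists_stab hl u h2 (fun k => by rw [h3 k, count_label hl k])
      rw [polyt_comp cl rl π hπ]
      exact Submodule.smul_mem _ _ (Submodule.mem_span_singleton_self _)
    · push Not at h2
      obtain ⟨x, y, hc, hxy, hne⟩ := h2
      rw [polyt_eq_zero cl u hne hc hxy]
      exact Submodule.zero_mem _
  obtain ⟨a, ha⟩ := Submodule.mem_span_singleton.mp hmem
  exact ⟨a, ha.symm⟩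

theorem polyt_apply_self {lam : YoungDiagram} {rl cl : X → ℕ} (hl : IsLabel lam.cells rl cl) :
    polyt cl rl rl = 1 := by
  unfold polyt
  rw [Finsupp.finsetSum_apply, sum_eq_single (1 : Perm X)]
  · simp
  · intro π hπ hne
    rw [Finsupp.smul_apply, Finsupp.single_apply, if_neg, smul_zero]
    intro h
    apply hne
    ext x
    have h1 := congrFun h (π x)
    have h2 : cl (π x) = cl x := mem_stab.mp hπ x
    have h3 : (π⁻¹ : Perm X) (π x) = x := π.symm_apply_apply x
    simp only [Function.comp_apply] at h1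
    rw [h3] at h1
    rw [hl.inj _ _ h1.symm h2]
    rfl
  · intro h
    exact absurd (Conj.one_mem_stab cl) h

theorem polyt_ne_zero {lam : YoungDiagram} {rl cl : X → ℕ} (hl : IsLabel lam.cells rl cl) :
    polyt cl rl ≠ 0 := by
  intro h
  have := polyt_apply_self hl
  rw [h] at this
  simp at this

/-- The signed column sum of a polytabloid. -/
theorem kap_polyt (c r : X → ℕ) : kap c (polyt c r) = ((stab c).card : ℂ) • polyt c r := by
  rw [kap_apply]
  have : ∀ π ∈ stab c, ((Perm.sign π : ℤ) : ℂ) • wordRep X π (polyt c r) = polyt c r := by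
    intro π hπ
    have h1 := wordRep_mul_polyt 1 π c r hπ
    rw [one_mul, map_one] at h1
    rw [h1, smul_smul, Conj.sgn_sq, one_smul]
    rfl
  rw [sum_congr rfl this, sum_const, ← Nat.cast_smul_eq_nsmul ℂ]

theorem card_stab_ne_zero (c : X → ℕ) : ((stab c).card : ℂ) ≠ 0 := by
  have : (stab c).card ≠ 0 := card_ne_zero_of_mem (Conj.one_mem_stab c)
  exact_mod_cast this

theorem kap_polyt_ne_zero {lam : YoungDiagram} {rl cl : X → ℕ} (hl : IsLabel lam.cells rl cl) :
    kap cl (polyt cl rl) ≠ 0 := by
  rw [kap_polyt]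
  exact smul_ne_zero (card_stab_ne_zero cl) (polyt_ne_zero hl)

/-- The hermitian pairing with `v`. -/
def pair (v : WM X) : WM X →ₗ[ℂ] ℂ := ∑ u ∈ v.support, star (v u) • Finsupp.lapply u

theorem pair_apply (v w : WM X) : pair v w = ∑ u ∈ v.support, star (v u) * w u := by
  simp [pair, LinearMap.sum_apply]

theorem pair_single (v : WM X) (u : X → ℕ) (a : ℂ) :
    pair v (Finsupp.single u a) = star (v u) * a := by
  rw [pair_apply]
  by_cases hu : u ∈ v.support
  · rw [sum_eq_single u]
    · simp
    · intro w _ hw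
      rw [Finsupp.single_apply, if_neg (fun h => hw h.symm), mul_zero]
    · intro h
      exact absurd hu h
  · rw [Finsupp.notMem_support_iff] at hu
    rw [hu, star_zero, zero_mul]
    refine sum_eq_zero fun w hw => ?_
    rw [Finsupp.single_apply, if_neg, mul_zero]
    rintro rfl
    exact (Finsupp.mem_support_iff.mp hw) hu

theorem pair_polyt (v : WM X) (c r : X → ℕ) : pair v (polyt c r) = star (kap c v r) := by
  unfold polyt
  rw [map_sum, kap_apply, Finsupp.finsetSum_apply, star_sum]
  refine sum_bij' (fun π _ => π⁻¹) (fun π _ => π⁻¹) ?_ ?_ ?_ ?_ ?_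
  · intro π hπ
    exact Conj.inv_mem_stab hπ
  · intro π hπ
    exact Conj.inv_mem_stab hπ
  · intro π _
    simp
  · intro π _
    simp
  · intro π _
    rw [map_smul, pair_single, Finsupp.smul_apply, wordRep_apply', Perm.sign_inv, smul_eq_mul,
      smul_eq_mul, star_mul]
    simp [mul_comm]

theorem eq_zero_of_pair (v : WM X) (h : pair v v = 0) : v = 0 := by
  rw [pair_apply] at h
  have h1 : ((∑ u ∈ v.support, Complex.normSq (v u) : ℝ) : ℂ) = 0 := by
    rw [← h]
    push_cast
    refine sum_congr rfl fun u _ => ?_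
    rw [Complex.normSq_eq_conj_mul_self]
    rfl
  have h2 : (∑ u ∈ v.support, Complex.normSq (v u) : ℝ) = 0 := by exact_mod_cast h1
  ext u
  by_contra hu
  have hmem : u ∈ v.support := Finsupp.mem_support_iff.mpr hu
  have h3 := (sum_eq_zero_iff_of_nonneg (fun u _ => Complex.normSq_nonneg _)).mp h2 u hmem
  exact hu (Complex.normSq_eq_zero.mp h3)

end Kap

section Specht

variable {n : ℕ}

theorem specht_le_Wd (lam : YoungDiagram) : spechtSub n lam ≤ Wd (Fin n) (cnt lam) := by
  unfold spechtSub
  rw [Submodule.span_le]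
  rintro v ⟨t, rfl⟩
  exact polyt_mem_Wd (isLabel_of_equiv t)

/-- One polytabloid generates the Specht module. -/
theorem eq_of_polyt_mem (lam : YoungDiagram) (P : Submodule ℂ (WM (Fin n)))
    (hP : P ≤ spechtSub n lam) (hst : ∀ g : Perm (Fin n), ∀ v ∈ P, wordRep (Fin n) g v ∈ P)
    (t : Fin n ≃ lam.cells) (ht : polyt (fun x => (t x).1.2) (fun x => (t x).1.1) ∈ P) :
    P = spechtSub n lam := by
  refine le_antisymm hP ?_
  unfold spechtSub
  rw [Submodule.span_le]
  rintro v ⟨s, rfl⟩
  have h1 := hst (s.trans t.symm)⁻¹ _ ht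
  rw [wordRep_polyt, inv_inv] at h1
  have e1 : (fun x => (t x).1.2) ∘ ⇑(s.trans t.symm : Perm (Fin n)) = fun x => (s x).1.2 := by
    funext x
    simp
  have e2 : (fun x => (t x).1.1) ∘ ⇑(s.trans t.symm : Perm (Fin n)) = fun x => (s x).1.1 := by
    funext x
    simp
  rw [e1, e2] at h1
  exact h1

/-- The submodule theorem for Specht modules. -/
theorem eq_bot_or_eq (lam : YoungDiagram) (P : Submodule ℂ (WM (Fin n)))
    (hP : P ≤ spechtSub n lam) (hst : ∀ g : Perm (Fin n), ∀ v ∈ P, wordRep (Fin n) g v ∈ P) :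
    P = ⊥ ∨ P = spechtSub n lam := by
  by_cases h : ∃ v ∈ P, ∃ t : Fin n ≃ lam.cells, kap (fun x => (t x).1.2) v ≠ 0
  · right
    obtain ⟨v, hv, t, hne⟩ := h
    obtain ⟨a, ha⟩ := kap_mem_span (isLabel_of_equiv t) (specht_le_Wd lam (hP hv))
    refine eq_of_polyt_mem lam P hP hst t ?_
    have ha0 : a ≠ 0 := by
      rintro rfl
      rw [zero_smul] at ha
      exact hne ha
    have h1 : kap (fun x => (t x).1.2) v ∈ P := by
      rw [kap_apply]
      exact Submodule.sum_mem _ fun π _ => Submodule.smul_mem _ _ (hst π v hv)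
    rw [ha] at h1
    have h2 := Submodule.smul_mem P a⁻¹ h1
    rwa [smul_smul, inv_mul_cancel₀ ha0, one_smul] at h2
  · left
    push Not at h
    rw [Submodule.eq_bot_iff]
    intro v hv
    apply eq_zero_of_pair
    have h1 : spechtSub n lam ≤ LinearMap.ker (pair v) := by
      unfold spechtSub
      rw [Submodule.span_le]
      rintro w ⟨t, rfl⟩
      rw [SetLike.mem_coe, LinearMap.mem_ker, pair_polyt, h v hv t]
      simp
    exact h1 (hP hv)

theorem specht_coe (lam : YoungDiagram) (g : Perm (Fin n)) (v : spechtSub n lam) :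
    ((specht n lam g v : spechtSub n lam) : WM (Fin n)) = wordRep (Fin n) g v.1 := rfl

set_option maxSynthPendingDepth 3 in
/-- Specht modules are irreducible. -/
theorem specht_irreducible (lam : YoungDiagram) (h : lam.card = n) :
    (specht n lam).IsIrreducible := by
  have hcard : Fintype.card lam.cells = n := by
    rw [Fintype.card_coe]
    exact h
  let t : Fin n ≃ lam.cells := (Fintype.equivFinOfCardEq hcard).symm
  have hbt : (⊥ : Subrepresentation (specht n lam)) ≠ ⊤ := by
    intro hbt
    have h1 : (⟨_, polyt_mem t⟩ : spechtSub n lam) ∈ (⊤ : Subrepresentation (specht n lam)) :=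
      Submodule.mem_top
    rw [← hbt] at h1
    have h2 : (⟨_, polyt_mem t⟩ : spechtSub n lam) = 0 := h1
    exact polyt_ne_zero (isLabel_of_equiv t) (congrArg Subtype.val h2)
  have hnt : Nontrivial (Subrepresentation (specht n lam)) := ⟨⊥, ⊤, hbt⟩
  refine { eq_bot_or_eq_top := ?_ }
  intro U
  rcases eq_bot_or_eq lam (U.toSubmodule.map (spechtSub n lam).subtype)
    (Submodule.map_subtype_le _ _) (by
      rintro g _ ⟨v, hv, rfl⟩
      exact ⟨specht n lam g v, U.apply_mem_toSubmodule g hv, rfl⟩) with h1 | h1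
  · left
    apply Subrepresentation.toSubmodule_injective
    change U.toSubmodule = ⊥
    rw [Submodule.eq_bot_iff]
    intro v hv
    have h2 : v.1 ∈ U.toSubmodule.map (spechtSub n lam).subtype := ⟨v, hv, rfl⟩
    rw [h1, Submodule.mem_bot] at h2
    exact Subtype.ext h2
  · right
    apply Subrepresentation.toSubmodule_injective
    change U.toSubmodule = ⊤
    rw [eq_top_iff]
    intro v _
    have h2 : v.1 ∈ U.toSubmodule.map (spechtSub n lam).subtype := by
      rw [h1]
      exact v.2
    obtain ⟨w, hw, hwv⟩ := h2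
    have h3 : w = v := Subtype.ext hwv
    rw [← h3]
    exact hw

/-- If there is an injective equivariant map between Specht modules then the second shape is
dominated by the first. -/
theorem dom_of_injective {lam mu : YoungDiagram} (hlam : lam.card = n)
    (f : (specht n lam).IntertwiningMap (specht n mu)) (hf : Function.Injective f) (k : ℕ) :
    cnt mu k ≤ cnt lam k := by
  have hcard : Fintype.card lam.cells = n := by
    rw [Fintype.card_coe]
    exact hlam
  let t : Fin n ≃ lam.cells := (Fintype.equivFinOfCardEq hcard).symm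
  let e : spechtSub n lam := ⟨_, polyt_mem t⟩
  refine dom_of_kap_ne_zero (isLabel_of_equiv t) (specht_le_Wd mu (f e).2) ?_ k
  have h1 : kap (fun x => (t x).1.2) (f e).1 =
      (f (∑ π ∈ stab (fun x => (t x).1.2), ((Perm.sign π : ℤ) : ℂ) • specht n lam π e)).1 := by
    rw [kap_apply, map_sum, Submodule.coe_sum]
    refine sum_congr rfl fun π _ => ?_
    rw [map_smul, f.isIntertwining]
    rfl
  rw [h1]
  intro h2
  have h3 : f (∑ π ∈ stab (fun x => (t x).1.2), ((Perm.sign π : ℤ) : ℂ) • specht n lam π e) = 0 :=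
    Subtype.ext h2
  have h4 := hf (h3.trans (map_zero f).symm)
  have h5 := congrArg Subtype.val h4
  rw [Submodule.coe_sum] at h5
  refine kap_polyt_ne_zero (isLabel_of_equiv t) ?_
  rw [kap_apply]
  exact h5

/-- Specht modules of different shapes are not isomorphic. -/
theorem eq_of_equiv {lam mu : YoungDiagram} (hlam : lam.card = n) (hmu : mu.card = n)
    (h : Nonempty ((specht n lam).Equiv (specht n mu))) : lam = mu := by
  obtain ⟨φ⟩ := h
  refine eq_of_cnt fun k => le_antisymm ?_ ?_
  · exact dom_of_injective hmu φ.symm.toIntertwiningMap φ.symm.toLinearEquiv.injective k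
  · exact dom_of_injective hlam φ.toIntertwiningMap φ.toLinearEquiv.injective k

end Specht

end

end Vale.Agent.P197.H328
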