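import Vale.Agent.P197.H328.Faith

/-!
# An intrinsic form of Saxl's conjecture (helper328)
-/

namespace Vale.Agent.P197.H328

open Equiv Finset Vale.Agent.P197
open scoped TensorProduct

noncomputable section

section Labels

variable {X : Type} [Finite X] {m : ℕ}

/-- A function with fibres of the sizes `m, m - 1, ..., 1` is the row function of a labelling of
the staircase. -/
theorem exists_row_label (r : X → ℕ) (hr : ∀ i, Nat.card {x // r x = i} = m - i) :
    ∃ cl : X → ℕ, IsLabel (staircase m).cells r cl := by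
  let e : ∀ i, {x // r x = i} ≃ Fin (m - i) := fun i => Finite.equivFinOfCardEq (hr i)
  let cl : X → ℕ := fun x => (e (r x) ⟨x, rfl⟩ : ℕ)
  have hcl : ∀ (i : ℕ) (x : X) (h : r x = i), cl x = (e i ⟨x, h⟩ : ℕ) := by
    rintro i x rfl
    rfl
  refine ⟨cl, ⟨?_, ?_, ?_⟩⟩
  · intro x
    rw [YoungDiagram.mem_cells, mem_staircase]
    have := (e (r x) ⟨x, rfl⟩).2
    change r x + (e (r x) ⟨x, rfl⟩ : ℕ) < m
    omega
  · intro x y h1 h2
    rw [hcl (r y) x h1, hcl (r y) y rfl] at h2
    have h3 := (e (r y)).injective (Fin.ext h2)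
    exact congrArg Subtype.val h3
  · rintro ⟨a, b⟩ hc
    rw [YoungDiagram.mem_cells, mem_staircase] at hc
    simp only at hc
    let x := (e a).symm ⟨b, by omega⟩
    refine ⟨x.1, x.2, ?_⟩
    rw [hcl a x.1 x.2]
    have : e a ⟨x.1, x.2⟩ = ⟨b, by omega⟩ := (e a).apply_symm_apply _
    rw [this]

theorem label_symm {rl cl : X → ℕ} (h : IsLabel (staircase m).cells rl cl) :
    IsLabel (staircase m).cells cl rl where
  mem x := by
    have := h.mem x
    rw [YoungDiagram.mem_cells, mem_staircase] at this ⊢
    simp only at this ⊢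
    omega
  inj x y h1 h2 := h.inj x y h2 h1
  surj c hc := by
    obtain ⟨x, h1, h2⟩ := h.surj (c.2, c.1) (by
      rw [YoungDiagram.mem_cells, mem_staircase] at hc ⊢
      simp only
      omega)
    exact ⟨x, h2, h1⟩

end Labels

section Char

variable {N m : ℕ} {V : Type} [AddCommGroup V] [Module ℂ V]

theorem signed_sum_mul (σ : Representation ℂ (Perm (Fin N)) V) (c : Fin N → ℕ) (s : Perm (Fin N))
    (hs : s ∈ stab c) (v : V) :
    ∑ π ∈ stab c, ((Perm.sign π : ℤ) : ℂ) • σ π (σ s v) =
      ((Perm.sign s : ℤ) : ℂ) • ∑ π ∈ stab c, ((Perm.sign π : ℤ) : ℂ) • σ π v := by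
  rw [Finset.smul_sum]
  refine Finset.sum_bij' (fun π _ => π * s) (fun π _ => π * s⁻¹) ?_ ?_ ?_ ?_ ?_
  · intro π hπ
    exact Conj.mul_mem_stab hπ hs
  · intro π hπ
    exact Conj.mul_mem_stab hπ (Conj.inv_mem_stab hs)
  · intro π _
    simp
  · intro π _
    simp
  · intro π _
    rw [map_mul σ, Module.End.mul_apply, smul_smul, Conj.sgn_mul,
      mul_comm (((Perm.sign π : ℤ) : ℂ)), ← mul_assoc, Conj.sgn_sq, one_mul]

theorem mem_stab_iff {r : Fin N → ℕ} {π : Perm (Fin N)} : π ∈ stab r ↔ r ∘ ⇑π = r := by
  rw [mem_stab]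
  exact ⟨fun h => funext h, fun h x => congrFun h x⟩

/-- The translates of a nonzero vector span an irreducible representation. -/
theorem span_orbit {G : Type} [Group G] (τ : Representation ℂ G V) (hτ : τ.IsIrreducible)
    (w : V) (hw : w ≠ 0) : Submodule.span ℂ (Set.range fun g => τ g w) = ⊤ := by
  let U : Subrepresentation τ :=
    { toSubmodule := Submodule.span ℂ (Set.range fun g => τ g w)
      apply_mem_toSubmodule := by
        intro g v hv
        have h1 : Submodule.span ℂ (Set.range fun g => τ g w) ≤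
            (Submodule.span ℂ (Set.range fun g => τ g w)).comap (τ g) := by
          rw [Submodule.span_le]
          rintro _ ⟨h, rfl⟩
          refine Submodule.subset_span ⟨g * h, ?_⟩
          simp [map_mul]
        exact h1 hv }
  have hU : U = ⊤ := by
    rcases hτ.eq_bot_or_eq_top U with h | h
    · exfalso
      apply hw
      have h1 : w ∈ U := Submodule.subset_span ⟨1, by simp⟩
      rw [h] at h1
      exact h1
    · exact h
  exact congrArg Subrepresentation.toSubmodule hU

set_option maxSynthPendingDepth 3 in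
/-- The staircase representation is characterised by a fixed vector and a sign vector of the same
Young subgroup. -/
theorem equiv_of_vectors (σ : Representation ℂ (Perm (Fin N)) V) (hσ : σ.IsIrreducible)
    (r : Fin N → ℕ) (hr : ∀ i, Nat.card {x // r x = i} = m - i)
    (v : V) (hv : v ≠ 0) (hvf : ∀ π : Perm (Fin N), r ∘ ⇑π = r → σ π v = v)
    (w : V) (hw : w ≠ 0)
    (hwf : ∀ π : Perm (Fin N), r ∘ ⇑π = r → σ π w = ((Perm.sign π : ℤ) : ℂ) • w) :
    Nonempty (σ.Equiv (specht N (staircase m))) := by
  classical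
  obtain ⟨cl, hl⟩ := exists_row_label r hr
  have hl' := label_symm hl
  -- the antisymmetrizer is not zero
  let κ : V →ₗ[ℂ] V := ∑ π ∈ stab r, ((Perm.sign π : ℤ) : ℂ) • σ π
  have hκ : ∀ x, κ x = ∑ π ∈ stab r, ((Perm.sign π : ℤ) : ℂ) • σ π x := by
    intro x
    simp [κ, LinearMap.sum_apply]
  have hκw : κ w = ((stab r).card : ℂ) • w := by
    rw [hκ]
    have : ∀ π ∈ stab r, ((Perm.sign π : ℤ) : ℂ) • σ π w = w := by
      intro π hπ
      rw [hwf π (mem_stab_iff.mp hπ), smul_smul, Conj.sgn_sq, one_smul]
    rw [Finset.sum_congr rfl this, Finset.sum_const, ← Nat.cast_smul_eq_nsmul ℂ]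
  have hex : ∃ g : Perm (Fin N), κ (σ g v) ≠ 0 := by
    by_contra hcon
    push Not at hcon
    have h1 : (⊤ : Submodule ℂ V) ≤ LinearMap.ker κ := by
      rw [← span_orbit σ hσ v hv, Submodule.span_le]
      rintro _ ⟨g, rfl⟩
      exact hcon g
    have h2 : κ w = 0 := h1 Submodule.mem_top
    rw [hκw] at h2
    exact smul_ne_zero (card_stab_ne_zero r) hw h2
  obtain ⟨g, hg⟩ := hex
  set v' := σ g v with hv'
  set u : Fin N → ℕ := r ∘ ⇑(g⁻¹ : Perm (Fin N)) with hu
  have hfix : ∀ π ∈ stab u, σ π v' = v' := by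
    intro π hπ
    have h1 : σ (g⁻¹ * π * g) v = v := by
      apply hvf
      funext x
      have h2 := mem_stab.mp hπ (g x)
      simp only [hu, Function.comp_apply, Perm.mul_apply] at h2 ⊢
      rw [h2]
      simp
    rw [hv', ← Module.End.mul_apply, ← map_mul]
    conv_rhs => rw [← h1]
    rw [← Module.End.mul_apply, ← map_mul]
    congr 2
    group
  have hinj : ∀ x y, r x = r y → u x = u y → x = y := by
    intro x y h1 h2
    by_contra hxy
    apply hg
    have hs1 : Equiv.swap x y ∈ stab r := by
      rw [mem_stab]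
      intro z
      by_cases hz : z = x
      · rw [hz, Equiv.swap_apply_left, h1]
      · by_cases hz' : z = y
        · rw [hz', Equiv.swap_apply_right, h1]
        · rw [Equiv.swap_apply_of_ne_of_ne hz hz']
    have hs2 : Equiv.swap x y ∈ stab u := by
      rw [mem_stab]
      intro z
      by_cases hz : z = x
      · rw [hz, Equiv.swap_apply_left, h2]
      · by_cases hz' : z = y
        · rw [hz', Equiv.swap_apply_right, h2]
        · rw [Equiv.swap_apply_of_ne_of_ne hz hz']
    have h3 := signed_sum_mul σ r _ hs1 v'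
    rw [hfix _ hs2, Perm.sign_swap hxy, ← hκ] at h3
    have h4 : κ v' = -κ v' := by
      conv_lhs => rw [h3]
      simp
    have h5 : (2 : ℂ) • κ v' = 0 := by
      rw [two_smul]
      nth_rewrite 2 [h4]
      exact add_neg_cancel _
    exact (smul_eq_zero.mp h5).resolve_left two_ne_zero
  have hcount : ∀ k, (univ.filter fun x => u x < k).card = (univ.filter fun x => cl x < k).card := by
    intro k
    rw [hu, count_comp, count_label hl, count_label hl']
  obtain ⟨π, hπ, hπu⟩ := exists_stab hl' u hinj hcount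
  have hlab : IsLabel (staircase m).cells u r := by
    have h1 := Conj.label_comp hl' π
    rw [mem_stab_iff.mp hπ, ← hπu] at h1
    exact h1
  obtain ⟨t, ht1, ht2⟩ := exists_equiv_of_isLabel hlab
  have hsum : ∑ g ∈ stab u, σ g v' = ((stab u).card : ℂ) • v' := by
    rw [Finset.sum_congr rfl hfix, Finset.sum_const, ← Nat.cast_smul_eq_nsmul ℂ]
  obtain ⟨f, hf⟩ := exists_intertwining σ t v' (by
    rw [ht1, ht2, hsum]
    have : ∑ π ∈ stab r, ((Perm.sign π : ℤ) : ℂ) • σ π (((stab u).card : ℂ) • v') =
        ((stab u).card : ℂ) • κ v' := by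
      rw [hκ, Finset.smul_sum]
      refine Finset.sum_congr rfl fun π _ => ?_
      rw [map_smul, smul_comm]
    rw [this]
    exact smul_ne_zero (card_stab_ne_zero u) hg)
  have hcard : (staircase m).card = N := by
    have := Fintype.card_congr t
    rw [Fintype.card_fin, Fintype.card_coe] at this
    exact this.symm
  have hirr := specht_irreducible (staircase m) hcard
  have hbij := (Representation.IsIrreducible.bijective_or_eq_zero f).resolve_right hf
  exact ⟨(f.ofBijective hbij).symm⟩

/-- The size of a set with fibres of sizes `m, m - 1, ..., 1`. -/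
theorem card_of_fibers (r : Fin N → ℕ) (hr : ∀ i, Nat.card {x // r x = i} = m - i) :
    m * (m + 1) / 2 = N := by
  obtain ⟨cl, hl⟩ := exists_row_label r hr
  obtain ⟨t, -, -⟩ := exists_equiv_of_isLabel hl
  have := Fintype.card_congr t
  rw [Fintype.card_fin, Fintype.card_coe] at this
  rw [this]
  exact (card_staircase m).symm

/-- The Specht module of the staircase has a fixed vector. -/
theorem exists_fixed (r : Fin N → ℕ) (hr : ∀ i, Nat.card {x // r x = i} = m - i) :
    ∃ v : spechtSub N (staircase m), v ≠ 0 ∧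
      ∀ π : Perm (Fin N), r ∘ ⇑π = r → specht N (staircase m) π v = v := by
  classical
  obtain ⟨cl, hl⟩ := exists_row_label r hr
  obtain ⟨t, ht1, ht2⟩ := exists_equiv_of_isLabel hl
  let e : spechtSub N (staircase m) := ⟨_, polyt_mem t⟩
  have he : e.1 = polyt cl r := by
    change polyt (fun x => (t x).1.2) (fun x => (t x).1.1) = polyt cl r
    rw [ht1, ht2]
  refine ⟨∑ g ∈ stab r, specht N (staircase m) g e, ?_, ?_⟩
  · intro h0
    have h1 := congrArg (fun v : spechtSub N (staircase m) => v.1 r) h0
    simp only [Submodule.coe_sum, Submodule.coe_zero, Finsupp.zero_apply] at h1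
    rw [Finsupp.finsetSum_apply] at h1
    have h2 : ∀ g ∈ stab r, (specht N (staircase m) g e).1 r = 1 := by
      intro g hg
      rw [specht_coe, wordRep_apply', mem_stab_iff.mp hg, he]
      exact polyt_apply_self hl
    rw [Finset.sum_congr rfl h2, Finset.sum_const, nsmul_eq_mul, mul_one] at h1
    exact card_stab_ne_zero r h1
  · intro π hπ
    rw [map_sum]
    refine Finset.sum_bij' (fun g _ => π * g) (fun g _ => π⁻¹ * g) ?_ ?_ ?_ ?_ ?_
    · intro g hg
      exact Conj.mul_mem_stab (mem_stab_iff.mpr hπ) hg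
    · intro g hg
      exact Conj.mul_mem_stab (Conj.inv_mem_stab (mem_stab_iff.mpr hπ)) hg
    · intro g _
      simp
    · intro g _
      simp
    · intro g _
      rw [map_mul, Module.End.mul_apply]

/-- The Specht module of the staircase has a sign vector. -/
theorem exists_sign (r : Fin N → ℕ) (hr : ∀ i, Nat.card {x // r x = i} = m - i) :
    ∃ w : spechtSub N (staircase m), w ≠ 0 ∧ ∀ π : Perm (Fin N), r ∘ ⇑π = r →
      specht N (staircase m) π w = ((Perm.sign π : ℤ) : ℂ) • w := by
  classical
  obtain ⟨cl, hl⟩ := exists_row_label r hr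
  have hl' := label_symm hl
  obtain ⟨t, ht1, ht2⟩ := exists_equiv_of_isLabel hl'
  let e : spechtSub N (staircase m) := ⟨_, polyt_mem t⟩
  have he : e.1 = polyt r cl := by
    change polyt (fun x => (t x).1.2) (fun x => (t x).1.1) = polyt r cl
    rw [ht1, ht2]
  refine ⟨e, ?_, ?_⟩
  · intro h0
    have h1 : e.1 = 0 := congrArg Subtype.val h0
    rw [he] at h1
    exact polyt_ne_zero hl' h1
  · intro π hπ
    apply Subtype.ext
    rw [specht_coe, Submodule.coe_smul, he]
    have h1 := wordRep_mul_polyt 1 π r cl (mem_stab_iff.mpr hπ)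
    rw [one_mul, map_one] at h1
    exact h1

set_option maxSynthPendingDepth 3 in
/-- The group algebra acts faithfully on the tensor square of the staircase representation. -/
theorem faithful_staircase (hN : m * (m + 1) / 2 = N) (a : Perm (Fin N) → ℂ)
    (ha : ∀ u, ∑ g : Perm (Fin N), a g •
      ((specht N (staircase m)).tprod (specht N (staircase m))) g u = 0) : a = 0 := by
  refine faithful_of_specht _ ?_ a ha
  intro lam hlam
  subst hN
  have h1 := saxl m lam hlam
  unfold kron at h1
  have := Module.nontrivial_of_finrank_pos h1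
  exact exists_ne 0

theorem faithful_congr {U : Type} [AddCommGroup U] [Module ℂ U]
    (σ : Representation ℂ (Perm (Fin N)) V) (τ : Representation ℂ (Perm (Fin N)) U)
    (e : σ.Equiv τ)
    (hτ : ∀ a : Perm (Fin N) → ℂ, (∀ u, ∑ g, a g • (τ.tprod τ) g u = 0) → a = 0)
    (a : Perm (Fin N) → ℂ) (ha : ∀ u, ∑ g, a g • (σ.tprod σ) g u = 0) : a = 0 := by
  apply hτ
  intro u
  induction u using TensorProduct.induction_on with
  | zero => simp
  | add x y hx hy => simp only [map_add, smul_add, Finset.sum_add_distrib, hx, hy, add_zero]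
  | tmul x y =>
    obtain ⟨x', rfl⟩ := e.toLinearEquiv.surjective x
    obtain ⟨y', rfl⟩ := e.toLinearEquiv.surjective y
    have h1 := congrArg (TensorProduct.map e.toLinearEquiv.toLinearMap e.toLinearEquiv.toLinearMap)
      (ha (x' ⊗ₜ[ℂ] y'))
    rw [map_zero, map_sum] at h1
    rw [← h1]
    refine Finset.sum_congr rfl fun g _ => ?_
    rw [map_smul, Representation.tprod_apply, Representation.tprod_apply, TensorProduct.map_tmul,
      TensorProduct.map_tmul, TensorProduct.map_tmul]
    congr 2
    · exact (Representation.IntertwiningMap.isIntertwining σ τ e.toIntertwiningMap g x').symm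
    · exact (Representation.IntertwiningMap.isIntertwining σ τ e.toIntertwiningMap g y').symm

set_option maxSynthPendingDepth 3 in
/-- The main theorem. -/
theorem main (m N : ℕ) (r : Fin N → ℕ) (hr : ∀ i, Nat.card {x // r x = i} = m - i)
    (V : Type) [AddCommGroup V] [Module ℂ V] (σ : Representation ℂ (Perm (Fin N)) V)
    (hσ : σ.IsIrreducible) (e : σ.Equiv (specht N (staircase m))) :
    (∀ (H : Type) [Group H] (f : H →* Perm (Fin N)), Function.Injective f →
      ∀ (W : Type) [AddCommGroup W] [Module ℂ W] [Nontrivial W] (τ : Representation ℂ H W),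
        ∃ T : τ.IntertwiningMap ((σ.tprod σ).comp f), T ≠ 0) ∧
    Submodule.span ℂ {F : Perm (Fin N) → ℂ | ∃ (φ ψ : Module.Dual ℂ V) (v w : V),
      F = fun g => φ (σ g v) * ψ (σ g w)} = ⊤ := by
  have hN := card_of_fibers r hr
  have hfaith := faithful_congr σ _ e (faithful_staircase hN)
  have := finite_of_irreducible σ hσ
  refine ⟨?_, ?_⟩
  · intro H _ f hf W _ _ _ τ
    exact exists_map_of_faithful (σ.tprod σ) hfaith f hf τ
  · exact span_eq_top_of_faithful σ hfaith

end Char

end

end Vale.Agent.P197.H328
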