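import Vale.Agent.P197.H328.Vec

/-!
# Every irreducible representation in the submodule generated by one explicit vector (helper328)
-/

namespace Vale.Agent.P197.H328

open Equiv Finset Vale.Agent.P197
open scoped TensorProduct

noncomputable section

/-- If the group algebra acts faithfully on the stable subspace `P` then every nonzero
representation has a nonzero equivariant map with values in `P`. -/
theorem exists_map_in {H : Type} [Group H] [Fintype H] {U : Type} [AddCommGroup U] [Module ℂ U]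
    (μ : Representation ℂ H U) (P : Submodule ℂ U) (hP : ∀ h, ∀ u ∈ P, μ h u ∈ P)
    (hμ : ∀ a : H → ℂ, (∀ u ∈ P, ∑ h : H, a h • μ h u = 0) → a = 0)
    {A : Type} [AddCommGroup A] [Module ℂ A] [Nontrivial A] (α : Representation ℂ H A) :
    ∃ T : α.IntertwiningMap μ, T ≠ 0 ∧ ∀ x, T x ∈ P := by
  classical
  obtain ⟨w, hw⟩ := exists_ne (0 : A)
  have hφ : ∃ φ : Module.Dual ℂ A, φ w ≠ 0 := by
    by_contra hcon
    push Not at hcon
    exact hw ((Module.forall_dual_apply_eq_zero_iff ℂ w).mp hcon)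
  obtain ⟨φ, hφ⟩ := hφ
  have hne : ∃ u ∈ P, ∑ h : H, φ (α h⁻¹ w) • μ h u ≠ 0 := by
    by_contra hcon
    push Not at hcon
    have h0 := congrFun (hμ (fun h => φ (α h⁻¹ w)) hcon) 1
    simp only [inv_one, map_one, Module.End.one_apply, Pi.zero_apply] at h0
    exact hφ h0
  obtain ⟨u, hu, hne⟩ := hne
  let L : A →ₗ[ℂ] U := ∑ h : H, ((φ.comp (α h⁻¹)).smulRight (μ h u))
  have hL : ∀ x, L x = ∑ h : H, φ (α h⁻¹ x) • μ h u := by
    intro x
    simp [L, LinearMap.sum_apply]
  refine ⟨L.intertwiningMap_of_isIntertwiningMap α μ ?_, ?_, ?_⟩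
  · intro k x
    rw [hL, hL, map_sum]
    refine Fintype.sum_equiv (Equiv.mulLeft k⁻¹) _ _ fun h => ?_
    rw [map_smul]
    simp only [Equiv.coe_mulLeft]
    rw [← Module.End.mul_apply (α h⁻¹), ← map_mul, ← Module.End.mul_apply (μ k), ← map_mul,
      mul_inv_rev, inv_inv, mul_inv_cancel_left]
  · intro h0
    apply hne
    rw [← hL]
    exact congrArg (fun T : α.IntertwiningMap μ => T w) h0
  · intro x
    change L x ∈ P
    rw [hL]
    exact Submodule.sum_mem _ fun h _ => Submodule.smul_mem _ _ (hP h u hu)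

variable {N m : ℕ}

/-- The subspace spanned by the translates of `w₁ ⊗ w₂` tensored with everything. -/
theorem exists_map_cyc {V : Type} [AddCommGroup V] [Module ℂ V]
    (σ : Representation ℂ (Perm (Fin N)) V) (w : V) (g : Perm (Fin N))
    (hσ : ∀ a : Perm (Fin N) → ℂ, (∀ h, ∑ k : Perm (Fin N), a k •
      (σ.tprod σ) k (σ h w ⊗ₜ[ℂ] σ h (σ g w)) = 0) → a = 0)
    {H : Type} [Group H] (f : H →* Perm (Fin N)) (hf : Function.Injective f)
    {A B : Type} [AddCommGroup A] [Module ℂ A] [Nontrivial A] [AddCommGroup B] [Module ℂ B]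
    [Nontrivial B] (α : Representation ℂ H A) (β : Representation ℂ H B) :
    ∃ T : α.IntertwiningMap (Representation.tprod ((σ.tprod σ).comp f) β), T ≠ 0 ∧
      ∀ x, T x ∈ Submodule.span ℂ {z | ∃ (h : Perm (Fin N)) (b : B),
        z = (σ h w ⊗ₜ[ℂ] σ (h * g) w) ⊗ₜ[ℂ] b} := by
  classical
  have hfin : Finite H := Finite.of_injective f hf
  have hfin' : Fintype H := Fintype.ofFinite H
  have hg : ∀ h : Perm (Fin N), σ (h * g) w = σ h (σ g w) := by
    intro h
    rw [map_mul σ h g, Module.End.mul_apply]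
  refine exists_map_in _ _ ?_ ?_ α
  · intro k u hu
    have hle : Submodule.span ℂ {z | ∃ (h : Perm (Fin N)) (b : B),
        z = (σ h w ⊗ₜ[ℂ] σ (h * g) w) ⊗ₜ[ℂ] b} ≤
        (Submodule.span ℂ {z | ∃ (h : Perm (Fin N)) (b : B),
        z = (σ h w ⊗ₜ[ℂ] σ (h * g) w) ⊗ₜ[ℂ] b}).comap
          ((Representation.tprod ((σ.tprod σ).comp f) β) k) := by
      rw [Submodule.span_le]
      rintro _ ⟨h, b, rfl⟩
      refine Submodule.subset_span ⟨f k * h, β k b, ?_⟩
      rw [Representation.tprod_apply, TensorProduct.map_tmul, MonoidHom.comp_apply,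
        Representation.tprod_apply, TensorProduct.map_tmul, mul_assoc, map_mul σ (f k) h,
        map_mul σ (f k) (h * g), Module.End.mul_apply, Module.End.mul_apply]
    exact hle hu
  · intro a ha
    obtain ⟨y, hy⟩ := exists_ne (0 : B)
    have hψ : ∃ ψ : Module.Dual ℂ B, ψ y ≠ 0 := by
      by_contra hcon
      push Not at hcon
      exact hy ((Module.forall_dual_apply_eq_zero_iff ℂ y).mp hcon)
    obtain ⟨ψ, hψ⟩ := hψ
    funext k
    let a' : H → ℂ := fun l => a l * ψ (β l (β k⁻¹ y))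
    let a'' : Perm (Fin N) → ℂ := fun p => ∑ l : H, if f l = p then a' l else 0
    have h0 : a'' = 0 := by
      apply hσ
      intro h
      have h1 := congrArg ((TensorProduct.rid ℂ (V ⊗[ℂ] V)).toLinearMap ∘ₗ
        TensorProduct.map (LinearMap.id : V ⊗[ℂ] V →ₗ[ℂ] V ⊗[ℂ] V) ψ)
        (ha ((σ h w ⊗ₜ[ℂ] σ (h * g) w) ⊗ₜ[ℂ] β k⁻¹ y)
          (Submodule.subset_span ⟨h, β k⁻¹ y, rfl⟩))
      rw [map_zero, map_sum] at h1
      rw [← h1]
      simp only [a'', Finset.sum_smul, ite_smul, zero_smul]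
      rw [Finset.sum_comm]
      refine Finset.sum_congr rfl fun l _ => ?_
      rw [Finset.sum_ite_eq, if_pos (Finset.mem_univ _), map_smul, ← hg]
      simp only [Representation.tprod_apply, TensorProduct.map_tmul, LinearMap.comp_apply,
        MonoidHom.comp_apply, a', LinearMap.id_coe, id_eq, LinearEquiv.coe_coe,
        TensorProduct.rid_tmul, mul_smul]
    have h2 := congrFun h0 (f k)
    simp only [a'', Pi.zero_apply] at h2
    rw [Finset.sum_eq_single k] at h2
    · rw [if_pos rfl] at h2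
      simp only [a'] at h2
      rw [← Module.End.mul_apply, ← map_mul, mul_inv_cancel, map_one, Module.End.one_apply] at h2
      exact (mul_eq_zero.mp h2).resolve_right hψ
    · intro l _ hne
      rw [if_neg fun he => hne (hf he)]
    · intro hh
      exact absurd (Finset.mem_univ _) hh

set_option maxSynthPendingDepth 3 in
/-- The main theorem, final form. -/
theorem top (m N : ℕ) (r : Fin N → ℕ) (hr : ∀ i, Nat.card {x // r x = i} = m - i)
    (V : Type) [AddCommGroup V] [Module ℂ V] (σ : Representation ℂ (Perm (Fin N)) V)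
    (hσ : σ.IsIrreducible)
    (v : V) (hv : v ≠ 0) (hvf : ∀ π : Perm (Fin N), r ∘ ⇑π = r → σ π v = v)
    (w : V) (hw : w ≠ 0)
    (hwf : ∀ π : Perm (Fin N), r ∘ ⇑π = r → σ π w = ((Perm.sign π : ℤ) : ℂ) • w)
    (g : Perm (Fin N)) (hg : Function.Injective fun x => (r x, r (g x))) :
    Submodule.span ℂ {F : Perm (Fin N) → ℂ | ∃ (φ ψ : Module.Dual ℂ V) (h : Perm (Fin N)),
        F = fun k => φ (σ (k * h) w) * ψ (σ (k * h * g) w)} = ⊤ ∧
    ∀ (H : Type) [Group H] (f : H →* Perm (Fin N)), Function.Injective f →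
      ∀ (A B : Type) [AddCommGroup A] [Module ℂ A] [Nontrivial A] [AddCommGroup B] [Module ℂ B]
        [Nontrivial B] (α : Representation ℂ H A) (β : Representation ℂ H B),
        ∃ T : α.IntertwiningMap (Representation.tprod ((σ.tprod σ).comp f) β), T ≠ 0 ∧
          ∀ x, T x ∈ Submodule.span ℂ {z | ∃ (h : Perm (Fin N)) (b : B),
            z = (σ h w ⊗ₜ[ℂ] σ (h * g) w) ⊗ₜ[ℂ] b} := by
  classical
  obtain ⟨e⟩ := equiv_of_vectors σ hσ r hr v hv hvf w hw hwf
  refine ⟨(main' m N r hr V σ hσ v hv hvf w hw hwf).1 g hg, ?_⟩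
  intro H _ f hf A B _ _ _ _ _ _ α β
  exact exists_map_cyc σ w g (faithful_vec r hr σ e w hw hwf g hg) f hf α β

set_option maxSynthPendingDepth 3 in
/-- The staircase Specht module is irreducible, has the two vectors, and is characterised by
them. -/
theorem characterisation (m N : ℕ) (r : Fin N → ℕ) (hr : ∀ i, Nat.card {x // r x = i} = m - i)
    (V : Type) [AddCommGroup V] [Module ℂ V] (σ : Representation ℂ (Perm (Fin N)) V)
    (hσ : σ.IsIrreducible) :
    ((∃ v ≠ 0, ∀ π : Perm (Fin N), r ∘ ⇑π = r → σ π v = v) ∧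
      ∃ w ≠ 0, ∀ π : Perm (Fin N), r ∘ ⇑π = r → σ π w = ((Perm.sign π : ℤ) : ℂ) • w) ↔
      Nonempty (σ.Equiv (specht N (staircase m))) := by
  constructor
  · rintro ⟨⟨v, hv, hvf⟩, w, hw, hwf⟩
    exact equiv_of_vectors σ hσ r hr v hv hvf w hw hwf
  · rintro ⟨e⟩
    have he : ∀ (h : Perm (Fin N)) (x : spechtSub N (staircase m)),
        e.symm.toLinearEquiv (specht N (staircase m) h x) = σ h (e.symm.toLinearEquiv x) :=
      fun h x => Representation.IntertwiningMap.isIntertwining _ σ e.symm.toIntertwiningMap h x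
    obtain ⟨v, hv, hvf⟩ := exists_fixed r hr
    obtain ⟨w, hw, hwf⟩ := exists_sign r hr
    refine ⟨⟨e.symm.toLinearEquiv v, ?_, ?_⟩, e.symm.toLinearEquiv w, ?_, ?_⟩
    · exact fun h0 => hv (e.symm.toLinearEquiv.injective (h0.trans (map_zero _).symm))
    · intro π hπ
      rw [← he, hvf π hπ]
    · exact fun h0 => hw (e.symm.toLinearEquiv.injective (h0.trans (map_zero _).symm))
    · intro π hπ
      rw [← he, hwf π hπ, map_smul]

end

end Vale.Agent.P197.H328
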