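import Vale.Agent.P197.H328.Cyc

/-!
# The explicit cyclic vector in intrinsic terms (helper328)
-/

namespace Vale.Agent.P197.H328

open Equiv Finset Vale.Agent.P197
open scoped TensorProduct

noncomputable section

variable {N m : ℕ} {V U : Type} [AddCommGroup V] [Module ℂ V] [AddCommGroup U] [Module ℂ U]

theorem transfer (σ : Representation ℂ (Perm (Fin N)) V) (τ : Representation ℂ (Perm (Fin N)) U)
    (e : σ.Equiv τ) (a : Perm (Fin N) → ℂ) (x y : V)
    (h : ∑ k, a k • (σ.tprod σ) k (x ⊗ₜ[ℂ] y) = 0) :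
    ∑ k, a k • (τ.tprod τ) k (e.toLinearEquiv x ⊗ₜ[ℂ] e.toLinearEquiv y) = 0 := by
  have h1 := congrArg
    (TensorProduct.map e.toLinearEquiv.toLinearMap e.toLinearEquiv.toLinearMap) h
  rw [map_zero, map_sum] at h1
  rw [← h1]
  refine Finset.sum_congr rfl fun g _ => ?_
  rw [map_smul, Representation.tprod_apply, Representation.tprod_apply, TensorProduct.map_tmul,
    TensorProduct.map_tmul, TensorProduct.map_tmul]
  congr 2
  · exact (Representation.IntertwiningMap.isIntertwining σ τ e.toIntertwiningMap g x).symm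
  · exact (Representation.IntertwiningMap.isIntertwining σ τ e.toIntertwiningMap g y).symm

/-- Sign vectors of the column group in the Specht module are multiples of the polytabloid. -/
theorem sign_vector_eq {i r : Fin N → ℕ} (hs : IsStair m i r)
    (w : spechtSub N (staircase m)) (hw : w ≠ 0)
    (hwf : ∀ π ∈ stab r, specht N (staircase m) π w = ((Perm.sign π : ℤ) : ℂ) • w) :
    ∃ c : ℂ, c ≠ 0 ∧ w = c • (⟨e0 m i r, e0_mem hs⟩ : spechtSub N (staircase m)) := by
  have hl : IsLabel (staircase m).cells (r0 m i r) r := label_of_stair (Conj.stair_rev hs)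
  have h1 : kap r w.1 = ((stab r).card : ℂ) • w.1 := by
    rw [kap_apply]
    have : ∀ π ∈ stab r, ((Perm.sign π : ℤ) : ℂ) • wordRep (Fin N) π w.1 = w.1 := by
      intro π hπ
      rw [← specht_coe, hwf π hπ, Submodule.coe_smul, smul_smul, Conj.sgn_sq, one_smul]
    rw [Finset.sum_congr rfl this, Finset.sum_const, ← Nat.cast_smul_eq_nsmul ℂ]
  obtain ⟨b, hb⟩ := kap_mem_span hl (specht_le_Wd _ w.2)
  rw [h1] at hb
  have hc := card_stab_ne_zero r
  have h2 : w.1 = (((stab r).card : ℂ)⁻¹ * b) • e0 m i r := by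
    rw [mul_smul]
    change w.1 = ((stab r).card : ℂ)⁻¹ • b • polyt r (r0 m i r)
    rw [← hb, smul_smul, inv_mul_cancel₀ hc, one_smul]
  refine ⟨_, ?_, Subtype.ext h2⟩
  intro h0
  apply hw
  apply Subtype.ext
  rw [h2, h0, zero_smul]
  rfl

/-- The translate of one polytabloid by `g` is the other one up to sign. -/
theorem translate_eq (r : Fin N → ℕ) (g : Perm (Fin N))
    (hs : IsStair m (r ∘ ⇑(g⁻¹ : Perm (Fin N))) r) :
    ∃ ε : ℂ, ε ≠ 0 ∧ specht N (staircase m) g ⟨e0 m (r ∘ ⇑(g⁻¹ : Perm (Fin N))) r, e0_mem hs⟩ =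
      ε • (⟨e1 m (r ∘ ⇑(g⁻¹ : Perm (Fin N))) r, e1_mem hs⟩ : spechtSub N (staircase m)) := by
  set i : Fin N → ℕ := r ∘ ⇑(g⁻¹ : Perm (Fin N)) with hi
  have hl : IsLabel (staircase m).cells (r0 m i r) r := label_of_stair (Conj.stair_rev hs)
  have hl2 : IsLabel (staircase m).cells (r0 m i r) i := by
    have h1 := label_of_stair (Conj.stair_rev hs.swap)
    rwa [r0_swap] at h1
  have hl3 := Conj.label_comp hl g⁻¹
  have hinj : ∀ x y, i x = i y → (r0 m i r ∘ ⇑(g⁻¹ : Perm (Fin N))) x =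
      (r0 m i r ∘ ⇑(g⁻¹ : Perm (Fin N))) y → x = y := fun x y h1 h2 => hl3.inj x y h2 h1
  obtain ⟨π, hπ, hπu⟩ := exists_stab hl2 _ hinj fun k => by rw [count_comp]
  refine ⟨((Perm.sign π : ℤ) : ℂ), ?_, ?_⟩
  · intro h0
    have := Conj.sgn_sq π
    rw [h0] at this
    simp at this
  · apply Subtype.ext
    rw [specht_coe, Submodule.coe_smul]
    change wordRep (Fin N) g (polyt r (r0 m i r)) = ((Perm.sign π : ℤ) : ℂ) • polyt i (r0 m i r)
    rw [wordRep_polyt, hπu, ← hi, polyt_comp i _ π hπ]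

theorem smul_tmul_smul (c ε : ℂ) (x y : V) :
    (c • x) ⊗ₜ[ℂ] (c • ε • y) = (c * (c * ε)) • (x ⊗ₜ[ℂ] y) := by
  rw [← TensorProduct.smul_tmul' c, TensorProduct.tmul_smul, TensorProduct.tmul_smul, smul_smul,
    smul_smul, mul_assoc]

set_option maxSynthPendingDepth 3 in
/-- The group algebra acts faithfully on the submodule generated by `w ⊗ g w`. -/
theorem faithful_vec (r : Fin N → ℕ) (hr : ∀ i, Nat.card {x // r x = i} = m - i)
    (σ : Representation ℂ (Perm (Fin N)) V) (e : σ.Equiv (specht N (staircase m)))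
    (w : V) (hw : w ≠ 0)
    (hwf : ∀ π : Perm (Fin N), r ∘ ⇑π = r → σ π w = ((Perm.sign π : ℤ) : ℂ) • w)
    (g : Perm (Fin N)) (hg : Function.Injective fun x => (r x, r (g x)))
    (a : Perm (Fin N) → ℂ)
    (ha : ∀ h, ∑ k : Perm (Fin N), a k • (σ.tprod σ) k (σ h w ⊗ₜ[ℂ] σ h (σ g w)) = 0) :
    a = 0 := by
  have hs := stair_of_inj r hr g hg
  have he : ∀ (h : Perm (Fin N)) (x : V),
      e.toLinearEquiv (σ h x) = specht N (staircase m) h (e.toLinearEquiv x) := fun h x =>
    Representation.IntertwiningMap.isIntertwining σ _ e.toIntertwiningMap h x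
  obtain ⟨c, hc, hcw⟩ := sign_vector_eq hs (e.toLinearEquiv w)
    (fun h0 => hw (e.toLinearEquiv.injective (h0.trans (map_zero _).symm)))
    (fun π hπ => by rw [← he, hwf π (mem_stab_iff.mp hπ), map_smul])
  obtain ⟨ε, hε, hεg⟩ := translate_eq r g hs
  refine faithful_cyc hs (card_of_fibers r hr) a fun h => ?_
  have h1 := transfer σ _ e a _ _ (ha h)
  rw [he, he, he, hcw, map_smul (specht N (staircase m) g), hεg, map_smul, map_smul, map_smul] at h1
  have h2 : (c * (c * ε)) • ∑ k : Perm (Fin N), a k •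
      ((specht N (staircase m)).tprod (specht N (staircase m))) k
        ((specht N (staircase m) h ⟨e0 m _ r, e0_mem hs⟩) ⊗ₜ[ℂ]
          (specht N (staircase m) h ⟨e1 m _ r, e1_mem hs⟩)) = 0 := by
    rw [← h1, Finset.smul_sum]
    refine Finset.sum_congr rfl fun k _ => ?_
    rw [smul_comm, ← map_smul]
    congr 2
    exact (smul_tmul_smul c ε _ _).symm
  exact (smul_eq_zero.mp h2).resolve_left (mul_ne_zero hc (mul_ne_zero hc hε))

set_option maxSynthPendingDepth 3 in
/-- The main theorem, final form. -/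
theorem main' (m N : ℕ) (r : Fin N → ℕ) (hr : ∀ i, Nat.card {x // r x = i} = m - i)
    (V : Type) [AddCommGroup V] [Module ℂ V] (σ : Representation ℂ (Perm (Fin N)) V)
    (hσ : σ.IsIrreducible)
    (v : V) (hv : v ≠ 0) (hvf : ∀ π : Perm (Fin N), r ∘ ⇑π = r → σ π v = v)
    (w : V) (hw : w ≠ 0)
    (hwf : ∀ π : Perm (Fin N), r ∘ ⇑π = r → σ π w = ((Perm.sign π : ℤ) : ℂ) • w) :
    (∀ g : Perm (Fin N), (Function.Injective fun x => (r x, r (g x))) →
      Submodule.span ℂ {F : Perm (Fin N) → ℂ | ∃ (φ ψ : Module.Dual ℂ V) (h : Perm (Fin N)),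
        F = fun k => φ (σ (k * h) w) * ψ (σ (k * h * g) w)} = ⊤) ∧
    ∀ (H : Type) [Group H] (f : H →* Perm (Fin N)), Function.Injective f →
      ∀ (A B : Type) [AddCommGroup A] [Module ℂ A] [Nontrivial A] [AddCommGroup B] [Module ℂ B]
        [Nontrivial B] (α : Representation ℂ H A) (β : Representation ℂ H B),
        ∃ T : α.IntertwiningMap (Representation.tprod ((σ.tprod σ).comp f) β), T ≠ 0 := by
  classical
  obtain ⟨e⟩ := equiv_of_vectors σ hσ r hr v hv hvf w hw hwf
  have hN := card_of_fibers r hr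
  have := finite_of_irreducible σ hσ
  refine ⟨?_, ?_⟩
  · intro g hg
    have h1 := span_eq_top_of_cyc σ w (σ g w) (faithful_vec r hr σ e w hw hwf g hg)
    have h3 : ∀ k h : Perm (Fin N), σ (k * h * g) w = σ (k * h) (σ g w) := by
      intro k h
      rw [map_mul σ (k * h) g, Module.End.mul_apply]
    simp only [h3]
    exact h1
  · intro H _ f hf A B _ _ _ _ _ _ α β
    have hfin : Finite H := Finite.of_injective f hf
    have hfin' : Fintype H := Fintype.ofFinite H
    have hfaith := faithful_congr σ _ e (faithful_staircase hN)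
    have h1 := faithful_sub (σ.tprod σ) hfaith f hf
    have h2 := faithful_tprod ((σ.tprod σ).comp f) β h1
    obtain ⟨T, hT⟩ := exists_map_of_faithful (Representation.tprod ((σ.tprod σ).comp f) β) h2
      (MonoidHom.id H) Function.injective_id α
    exact ⟨T, hT⟩

end

end Vale.Agent.P197.H328
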